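import Crest.Agent.PVc.R131.Star
import Crest.Agent.PVc.Lib.Complex.Univalent
import Mathlib
import Crest.Agent.PVc.R131.StDefs

-- ▼ part PVc/R131/Bridge
section

set_option autoImplicit false
open MeasureTheory Set Metric Filter Topology
open scoped ENNReal ComplexConjugate

namespace Crest.Agent.R131

/-- a holomorphic logarithm on a disc -/
theorem exists_log36 (h : ℂ → ℂ) (R : ℝ) (hh : DifferentiableOn ℂ h (ball 0 R))
    (h0 : ∀ z ∈ ball (0 : ℂ) R, h z ≠ 0) :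
    ∃ L : ℂ → ℂ, (∀ z ∈ ball (0 : ℂ) R, HasDerivAt L (deriv h z / h z) z) ∧
      ∀ z ∈ ball (0 : ℂ) R, Complex.exp (L z) = h z := by
  have hd : DifferentiableOn ℂ (fun z => deriv h z / h z) (ball 0 R) :=
    (hh.deriv isOpen_ball).div hh h0
  obtain ⟨L, hL0, hL⟩ := hd.isExactOn_ball.with_val_at 0 (Complex.log (h 0))
  refine ⟨L, hL, fun z hz => ?_⟩
  have hR : (0 : ℂ) ∈ ball (0 : ℂ) R := mem_ball_self (pos_of_mem_ball hz)
  have hq : ∀ w ∈ ball (0 : ℂ) R, HasDerivAt (fun w => Complex.exp (-L w) * h w) 0 w := by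
    intro w hw
    have h1 := ((hL w hw).neg.cexp).mul
      (hh.differentiableAt (isOpen_ball.mem_nhds hw)).hasDerivAt
    have := h0 w hw
    have e : Complex.exp ((-L) w) * -(deriv h w / h w) * h w +
        Complex.exp ((-L) w) * deriv h w = 0 := by
      field_simp
      ring
    rw [e] at h1
    exact h1
  have hc := isOpen_ball.is_const_of_deriv_eq_zero (convex_ball (0 : ℂ) R).isPreconnected
    (fun w hw => (hq w hw).differentiableAt.differentiableWithinAt)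
    (fun w hw => (hq w hw).deriv) hz hR
  simp only [hL0, Complex.exp_neg, Complex.exp_log (h0 0 hR)] at hc
  rw [inv_mul_cancel₀ (h0 0 hR)] at hc
  have he := Complex.exp_ne_zero (L z)
  field_simp at hc
  exact hc.symm

/-- `g = f'^(-al)` -/
theorem exists_root (f : ℂ → ℂ) (R : ℝ) (hf : DifferentiableOn ℂ f (ball 0 R))
    (hinj : InjOn f (ball 0 R)) (al : ℝ) :
    ∃ g : ℂ → ℂ, DifferentiableOn ℂ g (ball 0 R) ∧
      (∀ z ∈ ball (0 : ℂ) R, ‖g z‖ ^ 2 = ‖deriv f z‖ ^ (-(2 * al))) ∧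
      (∀ z ∈ ball (0 : ℂ) R,
        deriv g z = -(al : ℂ) * (deriv (deriv f) z / deriv f z) * g z) := by
  have h0 : ∀ z ∈ ball (0 : ℂ) R, deriv f z ≠ 0 := fun z hz =>
    Crest.Agent.Lib.Complex.deriv_ne_zero_of_injOn isOpen_ball hf hinj hz
  obtain ⟨L, hL, hE⟩ := exists_log36 (deriv f) R (hf.deriv isOpen_ball) h0
  have hg : ∀ z ∈ ball (0 : ℂ) R, HasDerivAt (fun w => Complex.exp (-(al : ℂ) * L w))
      (Complex.exp (-(al : ℂ) * L z) * (-(al : ℂ) * (deriv (deriv f) z / deriv f z))) z :=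
    fun z hz => ((hL z hz).const_mul (-(al : ℂ))).cexp
  refine ⟨fun w => Complex.exp (-(al : ℂ) * L w),
    fun z hz => (hg z hz).differentiableAt.differentiableWithinAt, fun z hz => ?_,
    fun z hz => ?_⟩
  · rw [← hE z hz, Complex.norm_exp, Complex.norm_exp, ← Real.exp_mul, ← Real.exp_nat_mul]
    congr 1
    simp
    ring
  · rw [(hg z hz).deriv]; ring

/-- the combination of `g` and `g'` that is `X g` -/
theorem root_X {f g : ℂ → ℂ} {c al : ℝ} (hal : al ≠ 0) {z : ℂ}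
    (hg : deriv g z = -(al : ℂ) * (deriv (deriv f) z / deriv f z) * g z) :
    ((c * ‖z‖ ^ 2 : ℝ) : ℂ) * g z - (((1 - ‖z‖ ^ 2) / al : ℝ) : ℂ) * z * deriv g z =
      sX f c z * g z := by
  have : (al : ℂ) ≠ 0 := by exact_mod_cast hal
  rw [hg, sX]
  push_cast
  field_simp
  ring

/-- the level at a critical point, up to the factor `(1+c)^2` -/
noncomputable def bU (f : ℂ → ℂ) (c : ℝ) (z : ℂ) : ℝ :=
  ‖deriv f z‖ ^ 2 * (1 - ‖z‖ ^ 2) ^ (1 - c) / ‖z‖ ^ 2

/-- the weight `|f'|^(-2 al) d^(b-1) |z|^(2 al-2)` -/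
noncomputable def bW (f : ℂ → ℂ) (al b : ℝ) (z : ℂ) : ℝ :=
  ‖deriv f z‖ ^ (-(2 * al)) * ((1 - ‖z‖ ^ 2) ^ (b - 1) * ‖z‖ ^ (2 * al - 2))

/-- the test function `(1+c)^2 u^(-(1+al))` -/
noncomputable def bPh (f : ℂ → ℂ) (c al : ℝ) (z : ℂ) : ℝ :=
  (1 + c) ^ 2 * bU f c z ^ (-(1 + al))

theorem one_sub_sq_pos {z : ℂ} (hz : z ∈ ball (0 : ℂ) 1) : 0 < 1 - ‖z‖ ^ 2 := by
  have h := mem_ball_zero_iff.1 hz
  have := norm_nonneg z
  nlinarith

theorem bW_nonneg (f : ℂ → ℂ) (al b : ℝ) {z : ℂ} (hz : z ∈ ball (0 : ℂ) 1) : 0 ≤ bW f al b z := by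
  have := one_sub_sq_pos hz
  unfold bW; positivity

theorem bU_nonneg (f : ℂ → ℂ) (c : ℝ) {z : ℂ} (hz : z ∈ ball (0 : ℂ) 1) : 0 ≤ bU f c z := by
  have := one_sub_sq_pos hz
  unfold bU; positivity

theorem bU_pos {f : ℂ → ℂ} (c : ℝ) {z : ℂ} (hz : z ∈ ball (0 : ℂ) 1) (hz0 : z ≠ 0)
    (hf : deriv f z ≠ 0) : 0 < bU f c z := by
  have := one_sub_sq_pos hz
  have h1 := norm_pos_iff.2 hz0
  have h2 := norm_pos_iff.2 hf
  unfold bU; positivity

theorem bPh_nonneg (f : ℂ → ℂ) (c al : ℝ) {z : ℂ} (hz : z ∈ ball (0 : ℂ) 1) :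
    0 ≤ bPh f c al z := by
  have := bU_nonneg f c hz
  unfold bPh; positivity

theorem sG_eq {f : ℂ → ℂ} {c : ℝ} (hc : -1 < c) {a z : ℂ} (hz : z ∈ ball (0 : ℂ) 1)
    (hz0 : z ≠ 0) (hF : sF f c z = a) : sG f c a z = bU f c z / (1 + c) ^ 2 := by
  have hd := one_sub_sq_pos hz
  have h1 := norm_pos_iff.2 hz0
  have hc' : 0 < 1 + c := by linarith
  have e : f z - a = -(((1 - ‖z‖ ^ 2 : ℝ) : ℂ) * deriv f z / (((1 + c : ℝ) : ℂ) * conj z)) := by
    rw [← hF, sF]; ring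
  have e2 : (1 - ‖z‖ ^ 2) ^ (1 - c) = (1 - ‖z‖ ^ 2) ^ 2 / (1 - ‖z‖ ^ 2) ^ (1 + c) := by
    rw [eq_div_iff (Real.rpow_pos_of_pos hd _).ne', ← Real.rpow_add hd]
    norm_num
  have hp := Real.rpow_pos_of_pos hd (1 + c)
  rw [sG, bU, e, e2, norm_neg, norm_div, norm_mul, norm_mul, Complex.norm_real, Complex.norm_real,
    Complex.norm_conj, Real.norm_of_nonneg hd.le, Real.norm_of_nonneg hc'.le]
  field_simp

theorem sJ_mul_bPh {f : ℂ → ℂ} {c al b : ℝ} (hc : -1 < c) (hb : b - 1 = -((1 + al) * (1 - c)))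
    {z : ℂ} (hz : z ∈ ball (0 : ℂ) 1) (hz0 : z ≠ 0) (hf : deriv f z ≠ 0) :
    sJ f c z * bPh f c al z = (‖sX f c z‖ ^ 2 - 1) * bW f al b z := by
  have hd := one_sub_sq_pos hz
  have h1 := norm_pos_iff.2 hz0
  have h2 := norm_pos_iff.2 hf
  have hc' : 0 < 1 + c := by linarith
  have hp := Real.rpow_pos_of_pos hd (1 - c)
  have e1 : (‖deriv f z‖ ^ 2) ^ (-(1 + al)) = ‖deriv f z‖ ^ (-(2 * al)) / ‖deriv f z‖ ^ 2 := by
    rw [← Real.rpow_natCast, ← Real.rpow_mul h2.le, ← Real.rpow_sub h2]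
    congr 1; push_cast; ring
  have e2 : ((1 - ‖z‖ ^ 2) ^ (1 - c)) ^ (-(1 + al)) = (1 - ‖z‖ ^ 2) ^ (b - 1) := by
    rw [← Real.rpow_mul hd.le, hb]; congr 1; ring
  have e3 : (‖z‖ ^ 2) ^ (-(1 + al)) = (‖z‖ ^ (2 * al - 2) * ‖z‖ ^ 4)⁻¹ := by
    rw [← Real.rpow_natCast, ← Real.rpow_mul h1.le, ← Real.rpow_natCast ‖z‖ 4,
      ← Real.rpow_add h1, ← Real.rpow_neg h1.le]
    congr 1; push_cast; ring
  have h3 := Real.rpow_pos_of_pos h1 (2 * al - 2)
  rw [sJ, bPh, bU, bW, Real.div_rpow (by positivity) (by positivity),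
    Real.mul_rpow (by positivity) hp.le, e1, e2, e3]
  field_simp

theorem bPh_le {f : ℂ → ℂ} {c al : ℝ} (hc : -1 < c) (hal : 0 ≤ 1 + al) {a s m : ℂ}
    (hs : s ∈ ball (0 : ℂ) 1) (hm : m ∈ ball (0 : ℂ) 1) (hs0 : s ≠ 0) (hm0 : m ≠ 0)
    (hfm : deriv f m ≠ 0) (hFs : sF f c s = a) (hFm : sF f c m = a) {κ : ℝ} (hκ : 0 < κ)
    (h : κ * sG f c a m ≤ sG f c a s) : bPh f c al s ≤ κ ^ (-(1 + al)) * bPh f c al m := by
  have hc' : 0 < 1 + c := by linarith
  rw [sG_eq hc hs hs0 hFs, sG_eq hc hm hm0 hFm, ← mul_div_assoc,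
    div_le_div_iff_of_pos_right (by positivity)] at h
  have hp := bU_pos c hm hm0 hfm
  have h1 : bU f c s ^ (-(1 + al)) ≤ (κ * bU f c m) ^ (-(1 + al)) :=
    Real.rpow_le_rpow_of_nonpos (by positivity) h (by linarith)
  rw [Real.mul_rpow hκ.le hp.le] at h1
  unfold bPh
  calc (1 + c) ^ 2 * bU f c s ^ (-(1 + al))
      ≤ (1 + c) ^ 2 * (κ ^ (-(1 + al)) * bU f c m ^ (-(1 + al))) := by gcongr
    _ = _ := by ring

theorem measurable_bU (f : ℂ → ℂ) (c : ℝ) : Measurable (bU f c) := by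
  have := measurable_deriv f
  unfold bU; fun_prop

theorem measurable_bPh (f : ℂ → ℂ) (c al : ℝ) : Measurable (bPh f c al) := by
  have := measurable_bU f c
  unfold bPh; fun_prop

theorem measurable_bW (f : ℂ → ℂ) (al b : ℝ) : Measurable (bW f al b) := by
  have := measurable_deriv f
  unfold bW; fun_prop

theorem measurable_sX36 (f : ℂ → ℂ) (c : ℝ) : Measurable (sX f c) := by
  have := measurable_deriv f
  have := measurable_deriv (deriv f)
  unfold sX; fun_prop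

theorem measurable_sJ36 (f : ℂ → ℂ) (c : ℝ) : Measurable (sJ f c) := by
  have := measurable_deriv f
  have := measurable_sX36 f c
  unfold sJ; fun_prop

/-- restriction to the set where a real factor is positive -/
theorem lint_pos_part (J P : ℂ → ℝ) (om : ℂ → ℝ≥0∞) (hJ : Measurable J) (V : ℂ → ℝ)
    (hP : ∀ z ∈ ball (0 : ℂ) 1, 0 ≤ P z)
    (hV : ∀ z ∈ ball (0 : ℂ) 1, z ≠ 0 → J z * P z = V z) :
    ∫⁻ z in {z | z ∈ ball (0 : ℂ) 1 ∧ 0 < J z},
        ENNReal.ofReal (J z) * (ENNReal.ofReal (P z) * om z) =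
      ∫⁻ z in ball (0 : ℂ) 1, ENNReal.ofReal (V z) * om z := by
  have hm : MeasurableSet {z | z ∈ ball (0 : ℂ) 1 ∧ 0 < J z} :=
    measurableSet_ball.inter (measurableSet_lt measurable_const hJ)
  rw [← lintegral_indicator hm, ← lintegral_indicator measurableSet_ball]
  refine lintegral_congr_ae ?_
  filter_upwards [Measure.ae_ne volume (0 : ℂ)] with z hz0
  by_cases hz : z ∈ ball (0 : ℂ) 1
  · rw [indicator_of_mem hz, ← hV z hz hz0]
    by_cases hj : 0 < J z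
    · rw [indicator_of_mem (show z ∈ {z | z ∈ ball (0 : ℂ) 1 ∧ 0 < J z} from ⟨hz, hj⟩),
        ENNReal.ofReal_mul hj.le, mul_assoc]
    · rw [indicator_of_notMem (fun h => hj h.2),
        ENNReal.ofReal_of_nonpos (mul_nonpos_of_nonpos_of_nonneg (not_lt.1 hj) (hP z hz)),
        zero_mul]
  · rw [indicator_of_notMem hz, indicator_of_notMem (fun h => hz h.1)]

/-- **(*) with a weight on the minima.**  `om m` is any measurable factor such that a saddle
paired with `m` has `κ * G m ≤ G s` for some `κ > 0` with `κ^(-(1+al)) ≤ om m`. -/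
theorem star_W (f : ℂ → ℂ) (R : ℝ) (hR : 1 < R) (hf : DifferentiableOn ℂ f (ball 0 R))
    (hinj : InjOn f (ball 0 R)) (c al b : ℝ) (hc : -1 < c) (hal : 0 ≤ 1 + al)
    (hb : b - 1 = -((1 + al) * (1 - c))) (om : ℂ → ℝ≥0∞) (hom : Measurable om)
    (hpair : ∀ a s m : ℂ, s ∈ ball (0 : ℂ) 1 → m ∈ ball (0 : ℂ) 1 → s ≠ 0 → m ≠ 0 →
      sF f c s = a → sF f c m = a → 0 < sJ f c s → sJ f c m < 0 →
      sG f c a m ≤ sG f c a s →
      (∃ C : Set ℂ, IsPreconnected C ∧ s ∈ C ∧ m ∈ C ∧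
        C ⊆ {z | z ∈ ball (0 : ℂ) 1 ∧ sG f c a z ≤ sG f c a s}) →
      ∃ κ : ℝ, 0 < κ ∧ κ * sG f c a m ≤ sG f c a s ∧ ENNReal.ofReal (κ ^ (-(1 + al))) ≤ om m) :
    ∫⁻ z in ball (0 : ℂ) 1, ENNReal.ofReal ((‖sX f c z‖ ^ 2 - 1) * bW f al b z) ≤
      ∫⁻ z in ball (0 : ℂ) 1, ENNReal.ofReal ((1 - ‖sX f c z‖ ^ 2) * bW f al b z) * om z := by
  have h0 : ∀ z ∈ ball (0 : ℂ) 1, deriv f z ≠ 0 := fun z hz =>
    Crest.Agent.Lib.Complex.deriv_ne_zero_of_injOn isOpen_ball hf hinj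
      (ball_subset_ball hR.le hz)
  have hP := (measurable_bPh f c al).ennreal_ofReal
  have H := star' f R hR hf hinj c hc (fun z => ENNReal.ofReal (bPh f c al z) * 1)
    (fun z => ENNReal.ofReal (bPh f c al z) * om z) (hP.mul measurable_const) (hP.mul hom)
    (fun a s m hs hm hs0 hm0 hFs hFm hJs hJm hG hC => by
      obtain ⟨κ, hκ, h1, h2⟩ := hpair a s m hs hm hs0 hm0 hFs hFm hJs hJm hG hC
      have h3 := bPh_le hc hal hs hm hs0 hm0 (h0 m hm) hFs hFm hκ h1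
      calc ENNReal.ofReal (bPh f c al s) * 1
          ≤ ENNReal.ofReal (κ ^ (-(1 + al)) * bPh f c al m) := by
            rw [mul_one]; exact ENNReal.ofReal_le_ofReal h3
        _ = ENNReal.ofReal (bPh f c al m) * ENNReal.ofReal (κ ^ (-(1 + al))) := by
            rw [ENNReal.ofReal_mul (by positivity), mul_comm]
        _ ≤ _ := by gcongr)
  rw [lint_pos_part (sJ f c) (bPh f c al) (fun _ => 1) (measurable_sJ36 f c)
    (fun z => (‖sX f c z‖ ^ 2 - 1) * bW f al b z) (fun z hz => bPh_nonneg f c al hz)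
    (fun z hz hz0 => sJ_mul_bPh hc hb hz hz0 (h0 z hz))] at H
  have H2 := lint_pos_part (fun z => -sJ f c z) (bPh f c al) om (measurable_sJ36 f c).neg
    (fun z => (1 - ‖sX f c z‖ ^ 2) * bW f al b z) (fun z hz => bPh_nonneg f c al hz)
    (fun z hz hz0 => by rw [neg_mul, sJ_mul_bPh hc hb hz hz0 (h0 z hz)]; ring)
  simp only [neg_pos] at H2
  rw [H2] at H
  simpa only [mul_one] using H

/-- **(*)** -/
theorem star_W1 (f : ℂ → ℂ) (R : ℝ) (hR : 1 < R) (hf : DifferentiableOn ℂ f (ball 0 R))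
    (hinj : InjOn f (ball 0 R)) (c al b : ℝ) (hc : -1 < c) (hal : 0 ≤ 1 + al)
    (hb : b - 1 = -((1 + al) * (1 - c))) :
    ∫⁻ z in ball (0 : ℂ) 1, ENNReal.ofReal ((‖sX f c z‖ ^ 2 - 1) * bW f al b z) ≤
      ∫⁻ z in ball (0 : ℂ) 1, ENNReal.ofReal ((1 - ‖sX f c z‖ ^ 2) * bW f al b z) := by
  have H := star_W f R hR hf hinj c al b hc hal hb (fun _ => 1) measurable_const
    (fun a s m _ _ _ _ _ _ _ _ hG _ => ⟨1, one_pos, by simpa using hG, by simp⟩)
  simpa only [mul_one] using H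

end Crest.Agent.R131
end

-- ▼ part PVc/R131/Dilate
section

/-!
Row 131: reduction of circle-mean bounds to maps univalent on a larger disc.
-/

set_option autoImplicit false

open MeasureTheory Metric Set
open scoped ENNReal

namespace Crest.Agent.R131.Dilate

theorem deriv_dil (f : ℂ → ℂ) {ρ : ℂ} (hρ : ρ ≠ 0) (z : ℂ) :
    deriv (fun w => f (ρ * w) / ρ) z = deriv f (ρ * z) := by
  rw [deriv_div_const, deriv_comp_mul_left, smul_eq_mul, mul_div_cancel_left₀ _ hρ]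

theorem mem_dil {ρ : ℝ} (hρ : 0 < ρ) {z : ℂ} (hz : z ∈ ball (0 : ℂ) (1 / ρ)) :
    (ρ : ℂ) * z ∈ ball (0 : ℂ) 1 := by
  rw [mem_ball_zero_iff] at hz ⊢
  rw [norm_mul, Complex.norm_real, Real.norm_of_nonneg hρ.le]
  rwa [lt_div_iff₀' hρ] at hz

theorem diffOn_dil {f : ℂ → ℂ} (hf : DifferentiableOn ℂ f (ball 0 1)) {ρ : ℝ} (hρ : 0 < ρ) :
    DifferentiableOn ℂ (fun w => f (ρ * w) / ρ) (ball 0 (1 / ρ)) :=
  (hf.comp (by fun_prop) fun _ hz => mem_dil hρ hz).div_const _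

theorem injOn_dil {f : ℂ → ℂ} (hf : InjOn f (ball 0 1)) {ρ : ℝ} (hρ : 0 < ρ) :
    InjOn (fun w => f (ρ * w) / ρ) (ball 0 (1 / ρ)) := by
  intro a ha b hb hab
  have h0 : (ρ : ℂ) ≠ 0 := by exact_mod_cast hρ.ne'
  have h1 := (div_left_inj' h0).1 hab
  exact mul_left_cancel₀ h0 (hf (mem_dil hρ ha) (mem_dil hρ hb) h1)

/-- A circle-mean bound `C (1-r)^e`, `e ≤ 0`, for normalised maps univalent on a larger disc gives
the bound for all normalised univalent maps of the unit disc. -/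
theorem dilate (φ : ℂ → ℝ≥0∞) (e : ℝ) (he : e ≤ 0)
    (h : ∃ C : ℝ, ∀ (f : ℂ → ℂ) (R : ℝ), 1 < R → DifferentiableOn ℂ f (ball 0 R) →
      InjOn f (ball 0 R) → f 0 = 0 → deriv f 0 = 1 → ∀ r : ℝ, 1 / 2 ≤ r → r < 1 →
        ∫⁻ θ in Ioc (-Real.pi) Real.pi,
            φ (deriv f ((r : ℂ) * Complex.exp ((θ : ℂ) * Complex.I))) ≤
          ENNReal.ofReal (C * (1 - r) ^ e)) :
    ∃ C : ℝ, ∀ f : ℂ → ℂ, DifferentiableOn ℂ f (ball 0 1) →
      InjOn f (ball 0 1) → f 0 = 0 → deriv f 0 = 1 → ∀ r : ℝ, 1 / 2 ≤ r → r < 1 →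
        ∫⁻ θ in Ioc (-Real.pi) Real.pi,
            φ (deriv f ((r : ℂ) * Complex.exp ((θ : ℂ) * Complex.I))) ≤
          ENNReal.ofReal (2 * Real.pi * C * (1 - r) ^ e) := by
  obtain ⟨C, hC⟩ := h
  refine ⟨|C| * (1 / 2) ^ e / (2 * Real.pi), fun f hf hinj h0 h1 r hr1 hr2 => ?_⟩
  set ρ : ℝ := (1 + r) / 2 with hρ
  have hρ0 : 0 < ρ := by rw [hρ]; linarith
  have hρ1 : ρ < 1 := by rw [hρ]; linarith
  have hρc : (ρ : ℂ) ≠ 0 := by exact_mod_cast hρ0.ne'
  have hR : 1 < 1 / ρ := by rw [lt_div_iff₀ hρ0]; linarith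
  have hr' : 1 / 2 ≤ r / ρ := by rw [le_div_iff₀ hρ0]; nlinarith
  have hr'' : r / ρ < 1 := by rw [div_lt_one hρ0, hρ]; linarith
  have key := hC (fun w => f (ρ * w) / ρ) (1 / ρ) hR (diffOn_dil hf hρ0) (injOn_dil hinj hρ0)
    (by simp [h0]) (by rw [deriv_dil f hρc, mul_zero, h1]) (r / ρ) hr' hr''
  have e1 : ∀ θ : ℝ, (ρ : ℂ) * (((r / ρ : ℝ) : ℂ) * Complex.exp ((θ : ℂ) * Complex.I)) =
      (r : ℂ) * Complex.exp ((θ : ℂ) * Complex.I) := by
    intro θ; push_cast; field_simp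
  simp_rw [deriv_dil f hρc, e1] at key
  refine key.trans (ENNReal.ofReal_le_ofReal ?_)
  have h2 : 0 < 1 - r := by linarith
  have h3 : (1 / 2) * (1 - r) ≤ 1 - r / ρ := by
    have : 1 - r / ρ = (ρ - r) / ρ := by field_simp
    rw [this, le_div_iff₀ hρ0, hρ]; nlinarith
  have h4 : (1 - r / ρ) ^ e ≤ ((1 / 2) * (1 - r)) ^ e :=
    Real.rpow_le_rpow_of_nonpos (by positivity) h3 he
  rw [Real.mul_rpow (by norm_num) h2.le] at h4
  have h5 : 0 ≤ (1 - r / ρ) ^ e := Real.rpow_nonneg (by linarith) _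
  have hpi := Real.pi_pos
  calc C * (1 - r / ρ) ^ e ≤ |C| * (1 - r / ρ) ^ e := by gcongr; exact le_abs_self C
    _ ≤ |C| * ((1 / 2) ^ e * (1 - r) ^ e) := by gcongr
    _ = _ := by field_simp

end Crest.Agent.R131.Dilate
end

-- ▼ part PVc/R131/StGain

/-! Row 131, part (B): `MinDepth → NonDeg → StGain` (helper31). -/

set_option autoImplicit false

open MeasureTheory Set Metric
open scoped ENNReal ComplexConjugate NNReal

noncomputable section

namespace Crest.Agent.R131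

theorem st_num {IX Ia Ib Ig M : ℝ≥0∞} {k η C : ℝ} (hk0 : 0 < k) (hk1 : k ≤ 1) (hη : 0 < η)
    (hM : M ≠ ⊤) (r1 : IX + Ib = M + Ia) (r2 : Ia ≤ Ig)
    (r3 : Ig + ENNReal.ofReal k * Ib ≤ Ib + ENNReal.ofReal (η / 4 * k) * M)
    (r4 : ENNReal.ofReal η * M ≤ Ia + Ib + ENNReal.ofReal C) (r5 : Ib ≤ M) (r6 : Ig ≤ Ib) :
    IX + ENNReal.ofReal (k * η / 4) * M ≤ M + ENNReal.ofReal C := by
  have hb : Ib ≠ ⊤ := ne_top_of_le_ne_top hM r5
  have hg : Ig ≠ ⊤ := ne_top_of_le_ne_top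
    (ENNReal.add_ne_top.2 ⟨hb, ENNReal.mul_ne_top ENNReal.ofReal_ne_top hM⟩) (le_self_add.trans r3)
  have ha : Ia ≠ ⊤ := ne_top_of_le_ne_top hg r2
  have hx : IX ≠ ⊤ := ne_top_of_le_ne_top (ENNReal.add_ne_top.2 ⟨hM, ha⟩) (le_self_add.trans r1.le)
  lift IX to ℝ≥0 using hx
  lift Ia to ℝ≥0 using ha
  lift Ib to ℝ≥0 using hb
  lift Ig to ℝ≥0 using hg
  lift M to ℝ≥0 using hM
  have hc : ENNReal.ofReal C = ((Real.toNNReal C : ℝ≥0) : ℝ≥0∞) := rfl
  simp only [ENNReal.ofReal] at r3 r4 ⊢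
  norm_cast at r1 r2 r3 r4 r5 r6 ⊢
  have r1' : (IX : ℝ) + Ib = M + Ia := by exact_mod_cast r1
  have r2' : (Ia : ℝ) ≤ Ig := by exact_mod_cast r2
  have r3' : (Ig : ℝ) + k * Ib ≤ Ib + η / 4 * k * M := by
    have := NNReal.coe_le_coe.2 r3
    simpa [Real.coe_toNNReal _ hk0.le, Real.coe_toNNReal _ (show 0 ≤ η / 4 * k by positivity)]
      using this
  have r4' : η * M ≤ (Ia : ℝ) + Ib + Real.toNNReal C := by
    have := NNReal.coe_le_coe.2 r4
    simpa only [NNReal.coe_mul, NNReal.coe_add, Real.coe_toNNReal _ hη.le] using this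
  rw [← NNReal.coe_le_coe]
  simp only [NNReal.coe_mul, NNReal.coe_add,
    Real.coe_toNNReal _ (show 0 ≤ k * η / 4 by positivity)]
  have hC : (0 : ℝ) ≤ Real.toNNReal C := NNReal.coe_nonneg _
  have hb0 : (0 : ℝ) ≤ Ib := NNReal.coe_nonneg _
  have hM0 : (0 : ℝ) ≤ M := NNReal.coe_nonneg _
  generalize ((Real.toNNReal C : ℝ≥0) : ℝ) = c at *
  have r6' : (Ig : ℝ) ≤ Ib := by exact_mod_cast r6
  have h5 : k * (η * M) ≤ k * (2 * Ib + c) := mul_le_mul_of_nonneg_left (by linarith) hk0.le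
  have h6 : k * c ≤ c := by nlinarith
  nlinarith

/-- the abstract integral bookkeeping -/
theorem st_abs {μ : Measure ℂ} {P W : ℂ → ℝ} {G : Set ℂ} [DecidablePred (· ∈ G)] {k η C : ℝ}
    (hP : Measurable P) (hW : Measurable W) (hG : MeasurableSet G) (hk0 : 0 < k) (hk1 : k ≤ 1)
    (hη : 0 < η) (hW0 : ∀ᵐ z ∂μ, 0 ≤ W z) (hP1 : ∀ z, -1 ≤ P z) (hPG : ∀ z, z ∉ G → -(η / 4) ≤ P z)
    (hM : ∫⁻ z, ENNReal.ofReal (W z) ∂μ ≠ ⊤)
    (h1 : ∫⁻ z, ENNReal.ofReal (P z * W z) ∂μ ≤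
      ∫⁻ z, ENNReal.ofReal (-P z * W z * (if z ∈ G then 1 - k else 1)) ∂μ)
    (h2 : ENNReal.ofReal η * ∫⁻ z, ENNReal.ofReal (W z) ∂μ ≤
      (∫⁻ z, ENNReal.ofReal (|P z| * W z) ∂μ) + ENNReal.ofReal C) :
    (∫⁻ z, ENNReal.ofReal ((P z + 1) * W z) ∂μ) +
      ENNReal.ofReal (k * η / 4) * ∫⁻ z, ENNReal.ofReal (W z) ∂μ ≤
        (∫⁻ z, ENNReal.ofReal (W z) ∂μ) + ENNReal.ofReal C := by
  have mb : Measurable fun z => ENNReal.ofReal (-P z * W z) := by fun_prop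
  have ma : Measurable fun z => ENNReal.ofReal (P z * W z) := by fun_prop
  have mw : Measurable fun z => ENNReal.ofReal (W z) := by fun_prop
  refine st_num (Ia := ∫⁻ z, ENNReal.ofReal (P z * W z) ∂μ)
    (Ib := ∫⁻ z, ENNReal.ofReal (-P z * W z) ∂μ) hk0 hk1 hη hM ?_ h1 ?_ ?_ ?_ ?_
  · rw [← lintegral_add_right _ mb, ← lintegral_add_right _ ma]
    refine lintegral_congr_ae ?_
    filter_upwards [hW0] with z hz
    have h1z := hP1 z
    rcases le_total 0 (P z) with h | h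
    · rw [ENNReal.ofReal_of_nonpos (show -P z * W z ≤ 0 by nlinarith), add_zero,
        ← ENNReal.ofReal_add hz (by positivity)]
      congr 1; ring
    · rw [ENNReal.ofReal_of_nonpos (show P z * W z ≤ 0 by nlinarith), add_zero,
        ← ENNReal.ofReal_add (by nlinarith) (by nlinarith)]
      congr 1; ring
  · rw [← lintegral_const_mul _ mb, ← lintegral_const_mul _ mw,
      ← lintegral_add_right _ (mb.const_mul _), ← lintegral_add_left mb]
    refine lintegral_mono_ae ?_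
    filter_upwards [hW0] with z hz
    rcases le_total 0 (P z) with h | h
    · have e0 : -P z * W z ≤ 0 := by nlinarith
      have e1 : -P z * W z * (if z ∈ G then 1 - k else 1) ≤ 0 := by
        split_ifs <;> nlinarith
      rw [ENNReal.ofReal_of_nonpos e1, ENNReal.ofReal_of_nonpos e0]; simp
    · have e0 : 0 ≤ -P z * W z := by nlinarith
      have e1 : 0 ≤ -P z * W z * (if z ∈ G then 1 - k else 1) := by
        split_ifs <;> nlinarith
      rw [← ENNReal.ofReal_mul hk0.le, ← ENNReal.ofReal_mul (by positivity),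
        ← ENNReal.ofReal_add e1 (by positivity), ← ENNReal.ofReal_add e0 (by positivity)]
      refine ENNReal.ofReal_le_ofReal ?_
      split_ifs with hz'
      · have : 0 ≤ η / 4 * k * W z := by positivity
        nlinarith
      · have h3 := hPG z hz'
        have h4 : -P z * W z ≤ η / 4 * W z := mul_le_mul_of_nonneg_right (by linarith) hz
        nlinarith
  · refine h2.trans (add_le_add_left (le_of_eq ?_) _)
    rw [← lintegral_add_right _ mb]
    refine lintegral_congr_ae ?_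
    filter_upwards [hW0] with z hz
    rcases le_total 0 (P z) with h | h
    · rw [ENNReal.ofReal_of_nonpos (show -P z * W z ≤ 0 by nlinarith), add_zero, abs_of_nonneg h]
    · rw [ENNReal.ofReal_of_nonpos (show P z * W z ≤ 0 by nlinarith), zero_add, abs_of_nonpos h]
  · refine lintegral_mono_ae ?_
    filter_upwards [hW0] with z hz
    have h1z := hP1 z
    exact ENNReal.ofReal_le_ofReal (by nlinarith)
  · refine lintegral_mono_ae ?_
    filter_upwards [hW0] with z hz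
    rcases le_total 0 (P z) with h | h
    · have e1 : -P z * W z * (if z ∈ G then 1 - k else 1) ≤ 0 := by
        have e0 : -P z * W z ≤ 0 := by nlinarith
        split_ifs <;> nlinarith
      rw [ENNReal.ofReal_of_nonpos e1]; simp
    · have e0 : 0 ≤ -P z * W z := by nlinarith
      refine ENNReal.ofReal_le_ofReal ?_
      split_ifs <;> nlinarith

/-- the critical level -/
def stU (c : ℝ) (f : ℂ → ℂ) (z : ℂ) : ℝ :=
  ‖deriv f z‖ ^ 2 * (1 - ‖z‖ ^ 2) ^ (1 - c) / ((1 + c) ^ 2 * ‖z‖ ^ 2)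

theorem stG_stF {c : ℝ} (hc : -1 < c) (f : ℂ → ℂ) {z : ℂ} (hz : z ∈ ball (0 : ℂ) 1) :
    stG c f (stF c f z) z = stU c f z := by
  have h : ‖z‖ < 1 := by simpa using hz
  have hd : 0 < 1 - ‖z‖ ^ 2 := by nlinarith [norm_nonneg z]
  unfold stG stF stU
  rw [sub_add_cancel_left, norm_neg, norm_div, norm_mul, norm_mul, Complex.norm_real,
    Complex.norm_real, RCLike.norm_conj, Real.norm_of_nonneg hd.le,
    Real.norm_of_nonneg (by linarith : (0 : ℝ) ≤ 1 + c)]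
  have e : (1 - ‖z‖ ^ 2) ^ (1 - c) = (1 - ‖z‖ ^ 2) ^ 2 / (1 - ‖z‖ ^ 2) ^ (1 + c) := by
    rw [← Real.rpow_natCast (1 - ‖z‖ ^ 2) 2, ← Real.rpow_sub hd]; congr 1; push_cast; ring
  rw [e, div_pow, mul_pow, mul_pow]; ring

theorem stU_pos {c : ℝ} (hc : -1 < c) {f : ℂ → ℂ} {z : ℂ} (hz : z ∈ ball (0 : ℂ) 1) (h0 : z ≠ 0)
    (hf : deriv f z ≠ 0) : 0 < stU c f z := by
  have h : ‖z‖ < 1 := by simpa using hz
  have hd : 0 < 1 - ‖z‖ ^ 2 := by nlinarith [norm_nonneg z]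
  have h1 : 0 < ‖z‖ := norm_pos_iff.2 h0
  have h2 : 0 < ‖deriv f z‖ := norm_pos_iff.2 hf
  have h3 : 0 < 1 + c := by linarith
  unfold stU; positivity

theorem stJ_mul {b : ℝ} (hb : 0 < b) {f : ℂ → ℂ} {z : ℂ} (hz : z ∈ ball (0 : ℂ) 1) (h0 : z ≠ 0)
    (hf : deriv f z ≠ 0) :
    stJ ((1 + 2 * b) / 3) f z *
        ((1 + (1 + 2 * b) / 3)⁻¹ * stU ((1 + 2 * b) / 3) f z ^ (-(3 / 2) : ℝ)) =
      (‖stX ((1 + 2 * b) / 3) f z‖ ^ 2 - 1) * stW b f z := by
  have h : ‖z‖ < 1 := by simpa using hz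
  have hd : 0 < 1 - ‖z‖ ^ 2 := by nlinarith [norm_nonneg z]
  have h1 : 0 < ‖z‖ := norm_pos_iff.2 h0
  have h2 : 0 < ‖deriv f z‖ := norm_pos_iff.2 hf
  set c := (1 + 2 * b) / 3 with hc
  have h3 : 0 < 1 + c := by rw [hc]; linarith
  have e : stU c f z ^ (-(3 / 2) : ℝ) =
      ((‖deriv f z‖ / ((1 + c) * ‖z‖)) ^ 3)⁻¹ * (1 - ‖z‖ ^ 2) ^ (b - 1) := by
    have e1 : stU c f z = (‖deriv f z‖ / ((1 + c) * ‖z‖)) ^ 2 * (1 - ‖z‖ ^ 2) ^ (1 - c) := by
      unfold stU; field_simp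
    have hx : 0 < ‖deriv f z‖ / ((1 + c) * ‖z‖) := by positivity
    rw [e1, Real.mul_rpow (by positivity) (by positivity), ← Real.rpow_mul hd.le,
      ← Real.rpow_natCast _ 2, ← Real.rpow_mul hx.le,
      ← Real.rpow_natCast (‖deriv f z‖ / ((1 + c) * ‖z‖)) 3, ← Real.rpow_neg hx.le]
    congr 2
    · push_cast; ring
    · rw [hc]; ring
  rw [e]; unfold stJ stW; field_simp

theorem stJ_pos_iff {c : ℝ} (hc : -1 < c) {f : ℂ → ℂ} {z : ℂ} (h0 : z ≠ 0)
    (hf : deriv f z ≠ 0) : (0 < stJ c f z ↔ 0 < ‖stX c f z‖ ^ 2 - 1) ∧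
      (stJ c f z < 0 ↔ ‖stX c f z‖ ^ 2 - 1 < 0) := by
  have h1 : 0 < ‖z‖ := norm_pos_iff.2 h0
  have h2 : 0 < ‖deriv f z‖ := norm_pos_iff.2 hf
  have h3 : 0 < 1 + c := by linarith
  have e : stJ c f z = (‖deriv f z‖ ^ 2 / ((1 + c) ^ 2 * ‖z‖ ^ 4)) * (‖stX c f z‖ ^ 2 - 1) := by
    unfold stJ; ring
  have hq : 0 < ‖deriv f z‖ ^ 2 / ((1 + c) ^ 2 * ‖z‖ ^ 4) := by positivity
  rw [e]
  exact ⟨mul_pos_iff_of_pos_left hq, by
    constructor
    · intro h; by_contra h'; exact absurd h (not_lt.2 (mul_nonneg hq.le (not_lt.1 h')))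
    · intro h; exact mul_neg_of_pos_of_neg hq h⟩

theorem stGain (hMD : MinDepth) (hND : NonDeg) : StGain := by
  classical
  intro K
  obtain ⟨η₀, hη₀, C, hC⟩ := hND K
  set η := min η₀ 1 with hη
  have hη0 : 0 < η := lt_min hη₀ one_pos
  have hη1 : η ≤ 1 := min_le_right _ _
  obtain ⟨δ₁, hδ₁, hD⟩ := hMD K (η / 8) (by positivity)
  set q := Real.exp δ₁ ^ (-(3 / 2) : ℝ) with hq
  have hq0 : 0 < q := by positivity
  have hq1 : q < 1 := Real.rpow_lt_one_of_one_lt_of_neg (Real.one_lt_exp_iff.2 hδ₁) (by norm_num)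
  refine ⟨(1 - q) * η / 4, by have : 0 < 1 - q := by linarith
                              positivity, by nlinarith, C, ?_⟩
  intro b f hb1 hb2 hf h1 hS hM
  set c := (1 + 2 * b) / 3 with hc
  have hc1 : 1 / 3 ≤ c := by rw [hc]; linarith
  have hc2 : c ≤ 1 / 2 := by rw [hc]; linarith
  have hc0 : -1 < c := by linarith
  have hb0 : 0 < b := by linarith
  have mX := measurable_stX c f
  have mU : Measurable (stU c f) := by
    unfold stU
    have h1 : Measurable (deriv f) := measurable_deriv f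
    fun_prop
  set G : Set ℂ := {z | ‖stX c f z‖ ≤ 1 - η / 8} with hG
  have mG : MeasurableSet G := measurableSet_le mX.norm measurable_const
  have key := st_abs (μ := volume.restrict (ball (0 : ℂ) 1)) (P := fun z => ‖stX c f z‖ ^ 2 - 1)
    (W := stW b f) (G := G) (k := 1 - q) (η := η) (C := C) (by fun_prop) (measurable_stW b f) mG
    (by linarith) (by linarith) hη0
    ((ae_restrict_mem measurableSet_ball).mono fun z hz => stW_nonneg b f hz)
    (fun z => by have := sq_nonneg ‖stX c f z‖; linarith)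
    (fun z hz => by
      have h : 1 - η / 8 < ‖stX c f z‖ := by simpa [hG] using hz
      nlinarith) hM ?_ ?_
  · simpa only [sub_add_cancel, stM] using key
  · let φ : ℂ → ℝ := fun z => (1 + c)⁻¹ * stU c f z ^ (-(3 / 2) : ℝ)
    have mφ : Measurable φ := by fun_prop
    have mκ : Measurable fun z => if z ∈ G then q else (1 : ℝ) :=
      Measurable.ite mG measurable_const measurable_const
    have hs := hS (fun z => ENNReal.ofReal (φ z))
      (fun z => ENNReal.ofReal (φ z * if z ∈ G then q else 1)) (by fun_prop)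
      (mφ.mul mκ).ennreal_ofReal ?_
    · have mJ := measurable_stJ c f
      have mS1 : MeasurableSet {z | z ∈ ball (0 : ℂ) 1 ∧ 0 < stJ c f z} :=
        measurableSet_ball.inter (measurableSet_lt measurable_const mJ)
      have mS2 : MeasurableSet {z | z ∈ ball (0 : ℂ) 1 ∧ stJ c f z < 0} :=
        measurableSet_ball.inter (measurableSet_lt mJ measurable_const)
      refine le_trans ?_ (hs.trans ?_)
      · rw [← lintegral_indicator mS1, ← lintegral_indicator measurableSet_ball]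
        refine lintegral_mono fun z => ?_
        by_cases hz : z ∈ ball (0 : ℂ) 1
        · rw [indicator_of_mem hz]
          by_cases h0 : z = 0
          · subst h0; simp [stW]
          by_cases hJ : 0 < stJ c f z
          · rw [indicator_of_mem (show z ∈ {z | z ∈ ball (0 : ℂ) 1 ∧ 0 < stJ c f z} from ⟨hz, hJ⟩),
              ← ENNReal.ofReal_mul hJ.le, stJ_mul hb0 hz h0 (hf.ne z hz)]
          · rw [(stJ_pos_iff hc0 h0 (hf.ne z hz)).1] at hJ
            rw [ENNReal.ofReal_of_nonpos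
              (mul_nonpos_of_nonpos_of_nonneg (not_lt.1 hJ) (stW_nonneg b f hz))]
            exact zero_le
        · rw [indicator_of_notMem hz]; exact zero_le
      · rw [← lintegral_indicator mS2, ← lintegral_indicator measurableSet_ball]
        refine lintegral_mono fun z => ?_
        by_cases hz : z ∈ {z | z ∈ ball (0 : ℂ) 1 ∧ stJ c f z < 0}
        · rw [indicator_of_mem hz, indicator_of_mem hz.1]
          have h0 : z ≠ 0 := by
            rintro rfl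
            have := hz.2
            simp [stJ] at this
          rw [← ENNReal.ofReal_mul (by linarith [hz.2])]
          refine le_of_eq ?_
          congr 1
          have e := stJ_mul hb0 hz.1 h0 (hf.ne z hz.1)
          have e2 : (if z ∈ G then 1 - (1 - q) else (1 : ℝ)) = if z ∈ G then q else 1 := by
            split_ifs <;> ring
          rw [e2, neg_mul (‖stX c f z‖ ^ 2 - 1), ← e]
          simp only [φ]; ring
        · rw [indicator_of_notMem hz]; exact zero_le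
    · rintro s hs m hm hs0 hm0 hF hJs hJm hle ⟨D, hD1, hsD, hmD, hDs⟩
      refine ENNReal.ofReal_le_ofReal ?_
      have hus := stU_pos hc0 hs hs0 (hf.ne s hs)
      have hum := stU_pos hc0 hm hm0 (hf.ne m hm)
      have es := stG_stF hc0 f hs
      have em := stG_stF hc0 f hm
      have h3 : 0 < (1 + c)⁻¹ := inv_pos.2 (by linarith)
      simp only [φ]
      rw [mul_assoc]
      refine mul_le_mul_of_nonneg_left ?_ h3.le
      split_ifs with hmG
      · obtain ⟨ρ, hρ, hin, hsph⟩ := hD c f hc1 hc2 hf m hm hm0 hmG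
        have hsout : ρ ≤ dist s m := by
          by_contra hlt
          have h4 := hin s (mem_closedBall.2 (not_le.1 hlt).le)
          have h5 := (stJ_pos_iff hc0 hs0 (hf.ne s hs)).1.1 hJs
          nlinarith [norm_nonneg (stX c f s)]
        obtain ⟨w, hwD, hw⟩ := hD1.intermediate_value hmD hsD (f := fun z => dist z m)
          (by fun_prop) (show ρ ∈ Icc (dist m m) (dist s m) from ⟨by simpa using hρ.le, hsout⟩)
        have h6 := hsph w (mem_sphere.2 hw)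
        have h7 := (hDs hwD).2
        rw [em, ← hF] at h6
        rw [es] at h7
        have h8 : Real.exp δ₁ * stU c f m ≤ stU c f s := h6.trans h7
        calc stU c f s ^ (-(3 / 2) : ℝ) ≤ (Real.exp δ₁ * stU c f m) ^ (-(3 / 2) : ℝ) :=
              Real.rpow_le_rpow_of_nonpos (by positivity) h8 (by norm_num)
          _ = _ := by rw [Real.mul_rpow (Real.exp_pos _).le hum.le, mul_comm]
      · rw [mul_one]
        rw [es, hF, em] at hle
        exact Real.rpow_le_rpow_of_nonpos hum hle (by norm_num)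
  · refine le_trans ?_ (hC b c f hb1 hb2 hc1 hc2 hf h1)
    exact mul_le_mul_left (ENNReal.ofReal_le_ofReal (min_le_left _ _)) _

end Crest.Agent.R131
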