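import Crest.Agent.PVc.R131.Star
import Crest.Agent.PVc.R131.StDefs
import Crest.Agent.PVc.R131.StrLip
import Crest.Agent.PVc.R131.StrDouble
import Crest.Agent.PVc.R131.StrictMax
import Crest.Agent.PVc.R131.Depth
import Crest.Agent.PVc.R131.StarDefs
import Crest.Agent.PVc.R131.Wt87
import Crest.Agent.PVc.R131.StGain_Mg
import Crest.Agent.PVc.R131.Dist13

-- ▼ part PVc/R131/StStar
section

set_option autoImplicit false
open MeasureTheory Set Metric Filter Topology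
open scoped ENNReal ComplexConjugate

namespace Crest.Agent.R131

theorem stX_eq (c : ℝ) (f : ℂ → ℂ) (z : ℂ) : stX c f z = sX f c z := by
  unfold stX sX; rw [mul_div_assoc]

theorem stJ_eq (c : ℝ) (f : ℂ → ℂ) (z : ℂ) : stJ c f z = sJ f c z := by
  unfold stJ sJ; rw [stX_eq]



theorem starP (c : ℝ) (f : ℂ → ℂ) (R : ℝ) (hR : 1 < R) (hf : DifferentiableOn ℂ f (ball 0 R))
    (hinj : InjOn f (ball 0 R)) (hc : -1 < c) : StarP c f := by
  intro Φ₁ Φ₂ h₁ h₂ hp
  simp only [stJ_eq]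
  refine star' f R hR hf hinj c hc Φ₁ Φ₂ h₁ h₂ ?_
  intro a s m hs hm hs0 hm0 hsa hma hJs hJm hG hC
  subst hsa
  exact hp s hs m hm hs0 hm0 hma.symm (by rwa [stJ_eq]) (by rwa [stJ_eq]) hG hC

end Crest.Agent.R131
end

-- ▼ part PVc/R131/StN
section

/-! Row 131, part (B2) (helper25): `| |X|² - 1 |` is not small on average. -/

set_option autoImplicit false

open MeasureTheory Set Metric
open scoped ENNReal

noncomputable section

namespace Crest.Agent.R131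

namespace N25

theorem harn {K m : ℝ} {f : ℂ → ℂ} (h : StOK K f) {S : Set ℂ} (hS : Convex ℝ S) (hm : 0 < m)
    (hSm : ∀ x ∈ S, ‖x‖ < 1 ∧ m ≤ 1 - ‖x‖ ^ 2) {z w : ℂ} (hz : z ∈ S) (hw : w ∈ S) :
    ‖deriv f w‖ ≤ Real.exp (K / m * ‖w - z‖) * ‖deriv f z‖ := by
  set γ : ℝ → ℂ := fun t => z + (t : ℂ) * (w - z) with hγ
  have hγS : ∀ t ∈ Icc (0 : ℝ) 1, γ t ∈ S := by
    intro t ht
    have := hS.add_smul_sub_mem hz hw ht
    simpa [hγ] using this
  have hγb : ∀ t ∈ Icc (0 : ℝ) 1, γ t ∈ ball (0 : ℂ) 1 := fun t ht =>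
    mem_ball_zero_iff.2 (hSm _ (hγS t ht)).1
  have hf1 : DifferentiableOn ℂ (deriv f) (ball 0 1) := h.diff.deriv isOpen_ball
  have hder : ∀ t ∈ Icc (0 : ℝ) 1, HasDerivAt (fun t => deriv f (γ t))
      (deriv (deriv f) (γ t) * (w - z)) t := by
    intro t ht
    have h1 : HasDerivAt (deriv f) (deriv (deriv f) (γ t)) (γ t) :=
      ((hf1 _ (hγb t ht)).differentiableAt (isOpen_ball.mem_nhds (hγb t ht))).hasDerivAt
    have h2 : HasDerivAt (fun s : ℂ => z + s * (w - z)) (w - z) (t : ℂ) := by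
      simpa using ((hasDerivAt_id (t : ℂ)).mul_const (w - z)).const_add z
    exact (h1.comp (t : ℂ) h2).comp_ofReal
  have hg := norm_le_gronwallBound_of_norm_deriv_right_le (f := fun t => deriv f (γ t))
    (f' := fun t => deriv (deriv f) (γ t) * (w - z)) (δ := ‖deriv f z‖)
    (K := K / m * ‖w - z‖) (ε := 0) (a := 0) (b := 1)
    (fun t ht => (hder t ht).continuousAt.continuousWithinAt)
    (fun t ht => (hder t (Ico_subset_Icc_self ht)).hasDerivWithinAt)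
    (by simp [hγ])
    (fun t ht => by
      have ht' := Ico_subset_Icc_self ht
      have h1 := h.pre _ (hγb t ht')
      have h2 := (hSm _ (hγS t ht')).2
      have h3 : m * ‖deriv (deriv f) (γ t)‖ ≤ K * ‖deriv f (γ t)‖ := by
        nlinarith [norm_nonneg (deriv (deriv f) (γ t))]
      have h4 : ‖deriv (deriv f) (γ t)‖ ≤ K / m * ‖deriv f (γ t)‖ := by
        rw [div_mul_eq_mul_div, le_div_iff₀ hm]; linarith
      rw [norm_mul, add_zero]
      calc _ ≤ K / m * ‖deriv f (γ t)‖ * ‖w - z‖ := by gcongr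
        _ = _ := by ring) 1 ⟨zero_le_one, le_rfl⟩
  rw [gronwallBound_ε0] at hg
  simpa [hγ, mul_comm] using hg

theorem K_nonneg {K : ℝ} {f : ℂ → ℂ} (h : StOK K f) : 0 ≤ K := by
  have h0 : (0 : ℂ) ∈ ball (0 : ℂ) 1 := mem_ball_self one_pos
  have h1 := h.pre 0 h0
  have h2 : 0 < ‖deriv f 0‖ := norm_pos_iff.2 (h.ne 0 h0)
  have h3 : 0 ≤ K * ‖deriv f 0‖ := le_trans (by simp) h1
  exact nonneg_of_mul_nonneg_left h3 h2

theorem W_harn {K b : ℝ} {f : ℂ → ℂ} (h : StOK K f) (hb0 : 0 ≤ b) (hb1 : b ≤ 1) {z0 z : ℂ}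
    (h0 : 9 / 10 ≤ ‖z0‖ ^ 2) (h1 : ‖z0‖ < 1) (hz : ‖z - z0‖ < 1 / 8 * (1 - ‖z0‖ ^ 2)) :
    stW b f z0 ≤ 4 * Real.exp (K / 4) * stW b f z := by
  have hK := K_nonneg h
  have a0 := norm_nonneg z0
  have hd : 0 < 1 - ‖z0‖ ^ 2 := by nlinarith
  set d0 := 1 - ‖z0‖ ^ 2 with hd0
  obtain ⟨g1, g2, g3⟩ := Lip.geo h1 (z := z) (by linarith)
  have hh := harn h (convex_closedBall z0 (d0 / 8)) (m := d0 / 2) (by positivity)
    (fun x hx => by
      rw [mem_closedBall, dist_eq_norm] at hx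
      obtain ⟨k1, k2, _⟩ := Lip.geo h1 (z := x) (by linarith)
      exact ⟨k1, k2⟩) (z := z0) (w := z) (mem_closedBall_self (by positivity))
    (by rw [mem_closedBall, dist_eq_norm]; linarith)
  have he : Real.exp (K / (d0 / 2) * ‖z - z0‖) ≤ Real.exp (K / 4) := by
    apply Real.exp_le_exp.2
    calc K / (d0 / 2) * ‖z - z0‖ ≤ K / (d0 / 2) * (1 / 8 * d0) := by gcongr
      _ = K / 4 := by field_simp; ring
  have p0 : 0 < ‖deriv f z0‖ := norm_pos_iff.2 (h.ne z0 (by simpa using h1))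
  have p1 : 0 < ‖deriv f z‖ := norm_pos_iff.2 (h.ne z (by simpa using g1))
  have t1 : ‖deriv f z0‖⁻¹ ≤ Real.exp (K / 4) * ‖deriv f z‖⁻¹ := by
    rw [← div_eq_mul_inv, le_div_iff₀ p1, inv_mul_le_iff₀ p0]
    calc ‖deriv f z‖ ≤ Real.exp (K / 4) * ‖deriv f z0‖ := hh.trans (by gcongr)
      _ = _ := mul_comm _ _
  have hdz : 0 < 1 - ‖z‖ ^ 2 := by linarith
  have t2 : d0 ^ (b - 1) ≤ 2 * (1 - ‖z‖ ^ 2) ^ (b - 1) := by
    calc d0 ^ (b - 1) ≤ ((1 - ‖z‖ ^ 2) / 2) ^ (b - 1) :=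
          Real.rpow_le_rpow_of_nonpos (by positivity) (by linarith) (by linarith)
      _ = (1 - ‖z‖ ^ 2) ^ (b - 1) * 2 ^ (1 - b) := by
          rw [Real.div_rpow hdz.le (by norm_num), div_eq_mul_inv, ← Real.rpow_neg (by norm_num)]
          congr 2; ring
      _ ≤ (1 - ‖z‖ ^ 2) ^ (b - 1) * 2 ^ (1 : ℝ) := by
          gcongr
          · norm_num
          · linarith
      _ = _ := by rw [Real.rpow_one]; ring
  have hz0 : 1 / 2 ≤ ‖z0‖ := by nlinarith
  have hzp : 0 < ‖z‖ := by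
    have : ‖z0‖ ≤ ‖z‖ + ‖z - z0‖ := by
      calc ‖z0‖ = ‖z - (z - z0)‖ := by ring_nf
        _ ≤ _ := norm_sub_le _ _
    nlinarith
  have t3 : ‖z0‖⁻¹ ≤ 2 * ‖z‖⁻¹ := by
    rw [← div_eq_mul_inv, le_div_iff₀ hzp, inv_mul_le_iff₀ (by linarith)]
    linarith
  unfold stW
  calc ‖deriv f z0‖⁻¹ * d0 ^ (b - 1) * ‖z0‖⁻¹
      ≤ (Real.exp (K / 4) * ‖deriv f z‖⁻¹) * (2 * (1 - ‖z‖ ^ 2) ^ (b - 1)) * (2 * ‖z‖⁻¹) := by
        gcongr
    _ = _ := by ring

theorem W_inner {K b : ℝ} {f : ℂ → ℂ} (h : StOK K f) (hb0 : 0 ≤ b) (hb1 : b ≤ 1)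
    (hf0 : deriv f 0 = 1) {z : ℂ} (hz : ‖z‖ ^ 2 ≤ 9 / 10) :
    stW b f z ≤ 10 * Real.exp (10 * K) * ‖z‖⁻¹ := by
  have hK := K_nonneg h
  have az := norm_nonneg z
  have hz1 : ‖z‖ < 1 := by nlinarith
  have hh := harn h (convex_closedBall (0 : ℂ) ‖z‖) (m := 1 / 10) (by norm_num)
    (fun x hx => by
      rw [mem_closedBall_zero_iff] at hx
      have := norm_nonneg x
      exact ⟨by linarith, by nlinarith⟩) (z := z) (w := 0) (by simp) (by simp)
  rw [hf0, norm_one] at hh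
  have he : Real.exp (K / (1 / 10) * ‖0 - z‖) ≤ Real.exp (10 * K) := by
    apply Real.exp_le_exp.2
    rw [zero_sub, norm_neg]
    nlinarith
  have p1 : 0 < ‖deriv f z‖ := norm_pos_iff.2 (h.ne z (by simpa using hz1))
  have t1 : ‖deriv f z‖⁻¹ ≤ Real.exp (10 * K) := by
    rw [inv_le_iff_one_le_mul₀ p1]
    exact hh.trans (by gcongr)
  have t2 : (1 - ‖z‖ ^ 2) ^ (b - 1) ≤ 10 := by
    calc (1 - ‖z‖ ^ 2) ^ (b - 1) ≤ (1 / 10 : ℝ) ^ (b - 1) :=
          Real.rpow_le_rpow_of_nonpos (by norm_num) (by linarith) (by linarith)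
      _ ≤ (1 / 10 : ℝ) ^ (-1 : ℝ) :=
          Real.rpow_le_rpow_of_exponent_ge (by norm_num) (by norm_num) (by linarith)
      _ = 10 := by rw [Real.rpow_neg_one]; norm_num
  unfold stW
  have : 0 ≤ (1 - ‖z‖ ^ 2) ^ (b - 1) := Real.rpow_nonneg (by nlinarith) _
  calc ‖deriv f z‖⁻¹ * (1 - ‖z‖ ^ 2) ^ (b - 1) * ‖z‖⁻¹ ≤ Real.exp (10 * K) * 10 * ‖z‖⁻¹ := by
        gcongr
    _ = _ := by ring

theorem inv_fin : ∫⁻ z in ball (0 : ℂ) 1, ENNReal.ofReal ‖z‖⁻¹ ≠ ⊤ := by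
  have h : IntegrableOn (fun z : ℂ => ‖z‖⁻¹) (ball 0 1) volume := by
    refine integrableOn_ball_of_norm_le_rpow (C := 1) (α := 1) (by simp) (by simp) ?_ ?_
    · exact Filter.Eventually.of_forall fun z => by simp [Real.rpow_neg_one]
    · exact (measurable_norm.inv).aestronglyMeasurable
  exact h.lintegral_lt_top.ne

end N25

open N25 in
theorem nonDeg : NonDeg := by
  intro K
  by_cases hK : 0 ≤ K
  swap
  · exact ⟨1, one_pos, 0, fun b c f _ _ _ _ h _ => absurd (K_nonneg h) hK⟩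
  have hL := Lip.L2_pos hK
  set δ : ℝ := 1 / 12800 with hδ
  set η : ℝ := min (1 / 16) (δ / Lip.L2 K) with hη
  have hη0 : 0 < η := lt_min (by norm_num) (by positivity)
  have hη1 : η ≤ 1 / 16 := min_le_left _ _
  have hη2 : Lip.L2 K * η ≤ δ := by
    have : η ≤ δ / Lip.L2 K := min_le_right _ _
    rw [le_div_iff₀ hL] at this; linarith
  set H : ℝ := 4 * Real.exp (K / 4) with hH
  have hH0 : 0 < H := by positivity
  set e : ℝ := δ * η ^ 2 / H with he
  have he0 : 0 < e := by positivity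
  set J : ℝ := (∫⁻ z in ball (0 : ℂ) 1, ENNReal.ofReal ‖z‖⁻¹).toReal with hJ
  have hJ0 : 0 ≤ J := ENNReal.toReal_nonneg
  refine ⟨e, he0, e * (10 * Real.exp (10 * K) * J), fun b c f hb0 hb1 hc0 hc1 h hf0 => ?_⟩
  set φ : ℂ → ℂ := fun z => deriv (deriv f) z / deriv f z with hφ
  have hf1 : DifferentiableOn ℂ (deriv f) (ball 0 1) := h.diff.deriv isOpen_ball
  have hφd : DifferentiableOn ℂ φ (ball 0 1) := (hf1.deriv isOpen_ball).div hf1 h.ne
  have hφb : ∀ z ∈ ball (0 : ℂ) 1, (1 - ‖z‖ ^ 2) * ‖φ z‖ ≤ K := by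
    intro z hz
    have p1 : 0 < ‖deriv f z‖ := norm_pos_iff.2 (h.ne z hz)
    simp only [hφ, norm_div]
    rw [← mul_div_assoc, div_le_iff₀ p1]
    exact h.pre z hz
  have hX : ∀ z, stX c f z = Lip.PP φ c z := fun z => rfl
  set W : ℂ → ℝ≥0∞ := fun z => ENNReal.ofReal (stW b f z) with hW
  have hWm : Measurable W := (measurable_stW b f).ennreal_ofReal
  set A : Set ℂ := {z | 9 / 10 ≤ ‖z‖ ^ 2} ∩ ball 0 1 with hA
  set N : Set ℂ := {z | δ ≤ |‖stX c f z‖ ^ 2 - 1|} ∩ ball 0 1 with hN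
  have hAm : MeasurableSet A :=
    (measurableSet_le measurable_const (measurable_norm.pow_const 2)).inter measurableSet_ball
  have hNm : MeasurableSet N := by
    have := measurable_stX c f
    exact (measurableSet_le measurable_const (by fun_prop)).inter measurableSet_ball
  have hD := doubling W hWm A N hAm hNm inter_subset_right (1 / 8) η hη0 le_rfl (ENNReal.ofReal H)
    (fun z0 hz0 z hz => by
      simp only [hW]
      rw [← ENNReal.ofReal_mul hH0.le]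
      exact ENNReal.ofReal_le_ofReal
        (W_harn h (by linarith) (by linarith) hz0.1 (by simpa using hz0.2) hz))
    (fun z0 hz0 => by
      have h1 : ‖z0‖ < 1 := by simpa using hz0.2
      have a0 := norm_nonneg z0
      have hd : 0 < 1 - ‖z0‖ ^ 2 := by nlinarith
      have key : ∃ z1, ‖z1 - z0‖ ≤ 1 / 16 * (1 - ‖z0‖ ^ 2) ∧
          2 * δ ≤ |‖Lip.PP φ c z1‖ ^ 2 - 1| := by
        have hq : ∀ z, SM.Q c (fun z => z * φ z) z = ‖Lip.PP φ c z‖ ^ 2 - 1 := by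
          intro z; unfold SM.Q Lip.PP; rw [mul_assoc]
        rcases SM.strict_max (c := c) (ρ := 1 / 16) (by linarith) (by linarith)
          (by norm_num) (by norm_num) (h := fun z => z * φ z)
          (differentiableOn_id.mul hφd) hz0.1 h1 with h2 | ⟨z1, h2, h3⟩
        · refine ⟨z0, by rw [sub_self, norm_zero]; positivity, ?_⟩
          rw [hq] at h2
          refine le_trans ?_ (le_abs_self _)
          rw [hδ]; linarith
        · refine ⟨z1, by rwa [mem_closedBall, dist_eq_norm] at h2, ?_⟩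
          rw [hq] at h3
          refine le_trans ?_ (neg_le_abs _)
          rw [hδ]; linarith
      obtain ⟨z1, k1, k2⟩ := key
      refine ⟨z1, fun z hz => ?_⟩
      rw [mem_ball, dist_eq_norm] at hz
      obtain ⟨s1, s2⟩ := Lip.subdisc (c := c) (by linarith) (by linarith) hφd hφb le_rfl hη1 hη2
        h1 k1 hz
      have s3 := (Lip.geo h1 (z := z) (by linarith)).1
      refine ⟨⟨?_, by simpa using s3⟩, by rw [mem_ball, dist_eq_norm]; linarith⟩
      show δ ≤ |‖stX c f z‖ ^ 2 - 1|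
      rw [hX]
      have := abs_sub_abs_le_abs_sub (‖Lip.PP φ c z1‖ ^ 2 - 1) (‖Lip.PP φ c z‖ ^ 2 - 1)
      have e1 : ‖Lip.PP φ c z1‖ ^ 2 - 1 - (‖Lip.PP φ c z‖ ^ 2 - 1) =
          -(‖Lip.PP φ c z‖ ^ 2 - ‖Lip.PP φ c z1‖ ^ 2) := by ring
      rw [e1, abs_neg] at this
      linarith)
  set I : ℝ≥0∞ := ∫⁻ z in ball (0 : ℂ) 1, ENNReal.ofReal (|‖stX c f z‖ ^ 2 - 1| * stW b f z)
    with hI
  have hNI : ENNReal.ofReal δ * ∫⁻ z in N, W z ≤ I := by
    rw [← lintegral_const_mul _ hWm]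
    calc ∫⁻ z in N, ENNReal.ofReal δ * W z
        ≤ ∫⁻ z in N, ENNReal.ofReal (|‖stX c f z‖ ^ 2 - 1| * stW b f z) := by
          refine setLIntegral_mono' hNm fun z hz => ?_
          simp only [hW]
          rw [← ENNReal.ofReal_mul (by norm_num [hδ])]
          exact ENNReal.ofReal_le_ofReal (mul_le_mul_of_nonneg_right hz.1 (stW_nonneg b f hz.2))
      _ ≤ I := lintegral_mono_set inter_subset_right
  have hAI : ENNReal.ofReal e * ∫⁻ z in A, W z ≤ I := by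
    calc ENNReal.ofReal e * ∫⁻ z in A, W z
        ≤ ENNReal.ofReal e * (ENNReal.ofReal H * ENNReal.ofReal (1 / η ^ 2) * ∫⁻ z in N, W z) := by
          gcongr
      _ = ENNReal.ofReal δ * ∫⁻ z in N, W z := by
          rw [← mul_assoc, ← ENNReal.ofReal_mul hH0.le, ← ENNReal.ofReal_mul he0.le]
          congr 2
          rw [he]; field_simp
      _ ≤ I := hNI
  have hin : ∫⁻ z in ball (0 : ℂ) 1 \ A, W z ≤ ENNReal.ofReal (10 * Real.exp (10 * K) * J) := by
    calc ∫⁻ z in ball (0 : ℂ) 1 \ A, W z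
        ≤ ∫⁻ z in ball (0 : ℂ) 1 \ A,
            ENNReal.ofReal (10 * Real.exp (10 * K)) * ENNReal.ofReal ‖z‖⁻¹ := by
          refine setLIntegral_mono' (measurableSet_ball.diff hAm) fun z hz => ?_
          simp only [hW]
          rw [← ENNReal.ofReal_mul (by positivity)]
          refine ENNReal.ofReal_le_ofReal (W_inner h (by linarith) (by linarith) hf0 ?_)
          by_contra hc
          exact hz.2 ⟨(not_le.1 hc).le, hz.1⟩
      _ ≤ ∫⁻ z in ball (0 : ℂ) 1,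
            ENNReal.ofReal (10 * Real.exp (10 * K)) * ENNReal.ofReal ‖z‖⁻¹ :=
          lintegral_mono_set sdiff_subset
      _ = _ := by
          rw [lintegral_const_mul' _ _ ENNReal.ofReal_ne_top,
            ENNReal.ofReal_mul (by positivity : 0 ≤ 10 * Real.exp (10 * K)), hJ,
            ENNReal.ofReal_toReal inv_fin]
  have hsplit : stM b f ≤ (∫⁻ z in A, W z) + ∫⁻ z in ball (0 : ℂ) 1 \ A, W z := by
    unfold stM
    refine le_trans (lintegral_mono_set ?_) (lintegral_union_le _ _ _)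
    intro z hz
    by_cases hzA : z ∈ A
    · exact Or.inl hzA
    · exact Or.inr ⟨hz, hzA⟩
  calc ENNReal.ofReal e * stM b f
      ≤ ENNReal.ofReal e * ((∫⁻ z in A, W z) + ∫⁻ z in ball (0 : ℂ) 1 \ A, W z) := by gcongr
    _ = ENNReal.ofReal e * (∫⁻ z in A, W z) +
          ENNReal.ofReal e * ∫⁻ z in ball (0 : ℂ) 1 \ A, W z := mul_add _ _ _
    _ ≤ I + ENNReal.ofReal e * ENNReal.ofReal (10 * Real.exp (10 * K) * J) := by gcongr
    _ = _ := by rw [← ENNReal.ofReal_mul he0.le]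

end Crest.Agent.R131
end
end

-- ▼ part PVc/R131/DepthB
section

/-!
# Row 131: expansion of `log G` at a critical point, depth of good minima (helper10)
-/

set_option autoImplicit false

open Metric Complex
open scoped ComplexConjugate

noncomputable section

namespace Crest.Agent.R131.Depth

theorem d_pos {p : ℂ} (hp : p ∈ ball (0 : ℂ) 1) : 0 < 1 - ‖p‖ ^ 2 := by
  rw [mem_ball_zero_iff] at hp
  nlinarith [norm_nonneg p]

theorem d_near {p z : ℂ} (hp : p ∈ ball (0 : ℂ) 1) (hz : z ∈ ball p ((1 - ‖p‖ ^ 2) / 4)) :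
    (1 - ‖p‖ ^ 2) / 4 ≤ 1 - ‖z‖ ^ 2 := by
  have hd := d_pos hp
  rw [mem_ball_zero_iff] at hp
  rw [mem_ball, dist_eq_norm] at hz
  have h1 : ‖z‖ ≤ ‖p‖ + (1 - ‖p‖ ^ 2) / 4 := by
    have := norm_add_le p (z - p)
    rw [add_sub_cancel] at this
    linarith
  have h2 : ‖z‖ ^ 2 ≤ (‖p‖ + (1 - ‖p‖ ^ 2) / 4) ^ 2 := by gcongr
  nlinarith [norm_nonneg p]

theorem ball_sub {p : ℂ} (hp : p ∈ ball (0 : ℂ) 1) :
    ball p ((1 - ‖p‖ ^ 2) / 4) ⊆ ball (0 : ℂ) 1 := fun z hz => by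
  have h1 := d_near hp hz
  have h2 := d_pos hp
  rw [mem_ball_zero_iff]
  nlinarith [norm_nonneg z]

theorem harnack {K : ℝ} (hK0 : 0 ≤ K) {f : ℂ → ℂ} (hf : DifferentiableOn ℂ f (ball 0 1))
    (hK : ∀ z ∈ ball (0 : ℂ) 1, (1 - ‖z‖ ^ 2) * ‖deriv (deriv f) z‖ ≤ K * ‖deriv f z‖)
    {p : ℂ} (hp : p ∈ ball (0 : ℂ) 1) :
    ∀ z ∈ ball p ((1 - ‖p‖ ^ 2) / 4), ‖deriv f z‖ ≤ Real.exp K * ‖deriv f p‖ := by
  intro z hz
  have hd := d_pos hp
  have hψ : DifferentiableOn ℂ (deriv f) (ball 0 1) := hf.deriv isOpen_ball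
  have hzp : ‖z - p‖ < (1 - ‖p‖ ^ 2) / 4 := by rwa [mem_ball, dist_eq_norm] at hz
  have hmem : ∀ t ∈ Set.Icc (0 : ℝ) 1, p + (t : ℂ) * (z - p) ∈ ball p ((1 - ‖p‖ ^ 2) / 4) := by
    intro t ht
    rw [mem_ball, dist_eq_norm, add_sub_cancel_left, norm_mul, Complex.norm_real,
      Real.norm_eq_abs, abs_of_nonneg ht.1]
    nlinarith [ht.1, ht.2, norm_nonneg (z - p)]
  have hder : ∀ t ∈ Set.Icc (0 : ℝ) 1, HasDerivAt (fun t : ℝ => deriv f (p + (t : ℂ) * (z - p)))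
      (deriv (deriv f) (p + (t : ℂ) * (z - p)) * (z - p)) t := by
    intro t ht
    have a1 : HasDerivAt (deriv f) (deriv (deriv f) (p + (t : ℂ) * (z - p)))
        (p + (t : ℂ) * (z - p)) :=
      (hψ.differentiableAt (isOpen_ball.mem_nhds (ball_sub hp (hmem t ht)))).hasDerivAt
    have a2 : HasDerivAt (fun w : ℂ => p + w * (z - p)) (z - p) (t : ℂ) := by
      simpa using ((hasDerivAt_id (t : ℂ)).mul_const (z - p)).const_add p
    exact (a1.comp (t : ℂ) a2).comp_ofReal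
  have key := norm_le_gronwallBound_of_norm_deriv_right_le
    (f := fun t : ℝ => deriv f (p + (t : ℂ) * (z - p)))
    (f' := fun t : ℝ => deriv (deriv f) (p + (t : ℂ) * (z - p)) * (z - p))
    (δ := ‖deriv f p‖) (K := K) (ε := 0) (a := 0) (b := 1)
    (fun t ht => (hder t ht).continuousAt.continuousWithinAt)
    (fun t ht => (hder t (Set.Ico_subset_Icc_self ht)).hasDerivWithinAt) (by simp)
    (fun t ht => by
      have ht' := Set.Ico_subset_Icc_self ht
      have h1 := hK _ (ball_sub hp (hmem t ht'))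
      have h2 := d_near hp (hmem t ht')
      rw [norm_mul, add_zero]
      nlinarith [norm_nonneg (deriv (deriv f) (p + (t : ℂ) * (z - p)))])
    1 (Set.right_mem_Icc.2 zero_le_one)
  rw [gronwallBound_ε0] at key
  simpa [mul_comm] using key

/-- **the uniform expansion of `log G` at a critical point** -/
theorem expand {f : ℂ → ℂ} {p s : ℂ} {c L : ℝ} (hL : 1 ≤ L) (hc0 : 0 ≤ c) (hc1 : c ≤ 1)
    (hf : DifferentiableOn ℂ f (ball 0 1)) (hp : p ∈ ball (0 : ℂ) 1) (hp0 : p ≠ 0)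
    (h1 : deriv f p ≠ 0)
    (hH : ∀ z ∈ ball p ((1 - ‖p‖ ^ 2) / 4), ‖deriv f z‖ ≤ L * ‖deriv f p‖)
    (hs : ‖s‖ ≤ 1 / (64 * L)) :
    0 < sG f c (sF f c p) p ∧ 0 < sG f c (sF f c p) (p + ((1 - ‖p‖ ^ 2 : ℝ) : ℂ) * s) ∧
    |Real.log (sG f c (sF f c p) (p + ((1 - ‖p‖ ^ 2 : ℝ) : ℂ) * s)) -
        Real.log (sG f c (sF f c p) p) -
        (1 + c) * (‖s‖ ^ 2 - (conj p / p * sX f c p * s ^ 2).re)| ≤ 600 * L * ‖s‖ ^ 3 := by
  have hd := d_pos hp
  set d : ℝ := 1 - ‖p‖ ^ 2 with hdd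
  have hdC : (d : ℂ) ≠ 0 := by exact_mod_cast hd.ne'
  have hn1 : 0 < ‖deriv f p‖ := norm_pos_iff.2 h1
  set z := p + (d : ℂ) * s with hz
  have hzp : z - p = (d : ℂ) * s := by rw [hz]; ring
  have hnzp : ‖z - p‖ = d * ‖s‖ := by
    rw [hzp, norm_mul, Complex.norm_real, Real.norm_eq_abs, abs_of_pos hd]
  have hs1 : ‖s‖ ≤ 1 / 64 := hs.trans (by gcongr; linarith)
  have hzb : z ∈ ball p (d / 4) := by
    rw [mem_ball, dist_eq_norm, hnzp]; nlinarith
  obtain ⟨t1, t2⟩ := taylor3 (by positivity : 0 < d / 4) (hf.mono (ball_sub hp)) hH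
  set a : ℂ := d * deriv (deriv f) p / (2 * deriv f p) with ha
  set R : ℂ := (f z - f p - deriv f p * (z - p) - deriv (deriv f) p * (z - p) ^ 2 / 2) /
    (d * deriv f p) with hR
  have hab : ‖a‖ ≤ 4 * L := by
    rw [ha, norm_div, norm_mul, norm_mul, Complex.norm_real, Real.norm_eq_abs, abs_of_pos hd,
      Complex.norm_ofNat, div_le_iff₀ (by positivity)]
    rw [le_div_iff₀ (by positivity)] at t1
    linarith
  have hRb : ‖R‖ ≤ 64 * L * ‖s‖ ^ 3 := by
    rw [hR, norm_div, norm_mul, Complex.norm_real, Real.norm_eq_abs, abs_of_pos hd,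
      div_le_iff₀ (by positivity)]
    refine (t2 z hzb).trans (le_of_eq ?_)
    rw [hnzp]; field_simp; ring
  have hm : ‖conj p‖ ≤ 1 := by
    rw [Complex.norm_conj]; exact (mem_ball_zero_iff.1 hp).le
  obtain ⟨c1, c2, c3⟩ := core (m := conj p) hL hc0 hc1 hm hab hRb hs
  rw [Complex.norm_conj, ← hdd] at c2 c3
  set k : ℂ := ((1 + c : ℝ) : ℂ) with hk
  have hk0 : k ≠ 0 := by rw [hk]; exact_mod_cast (by linarith : (1 + c) ≠ 0)
  have hcp : conj p ≠ 0 := by simpa using hp0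
  set q := k * conj p * (s + a * s ^ 2 + R) with hq
  set y := 2 * (conj p * s).re + d * ‖s‖ ^ 2 with hy
  set A : ℂ := d * deriv f p / (k * conj p) with hA
  have hA0 : 0 < ‖A‖ := norm_pos_iff.2 (div_ne_zero (mul_ne_zero hdC h1) (mul_ne_zero hk0 hcp))
  have e1 : f p - sF f c p = -A := by rw [sF, hA]; ring
  have e2 : f z - sF f c p = -A * (1 - q) := by
    rw [sF, hA, hq, hR, ha, hzp, ← hdd, ← hk]; field_simp; ring
  have e3 : 1 - ‖z‖ ^ 2 = d * (1 - y) := by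
    have hp2 : ‖p‖ ^ 2 = 1 - d := by rw [hdd]; ring
    rw [Complex.sq_norm, Complex.normSq_apply] at hp2
    rw [hy, Complex.sq_norm, Complex.sq_norm, Complex.normSq_apply, Complex.normSq_apply, hz]
    simp only [Complex.add_re, Complex.add_im, Complex.re_ofReal_mul, Complex.im_ofReal_mul,
      Complex.mul_re, Complex.conj_re, Complex.conj_im, Complex.ofReal_re, Complex.ofReal_im]
    linear_combination -hp2
  have hy1 : 0 < 1 - y := by linarith [(abs_le.1 c2).2]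
  have hq1 : 0 < ‖1 - q‖ := by
    have := norm_sub_norm_le (1 : ℂ) q
    rw [norm_one] at this; linarith
  have g1 : sG f c (sF f c p) p = ‖A‖ ^ 2 / d ^ (1 + c) := by rw [sG, e1, norm_neg]
  have g2 : sG f c (sF f c p) z = (‖A‖ * ‖1 - q‖) ^ 2 / (d * (1 - y)) ^ (1 + c) := by
    rw [sG, e2, norm_mul, norm_neg, e3]
  have e4 : conj p / p * sX f c p * s ^ 2 = conj p * (2 * a + c * conj p) * s ^ 2 := by
    have : ((‖p‖ ^ 2 : ℝ) : ℂ) = p * conj p := by
      rw [Complex.mul_conj, Complex.sq_norm]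
    rw [sX, ← hdd, ha, Complex.ofReal_mul, this]; field_simp; ring
  refine ⟨by rw [g1]; positivity, by rw [g2]; positivity, ?_⟩
  rw [g1, g2, e4, Real.log_div (by positivity) (by positivity),
    Real.log_div (by positivity) (by positivity), Real.log_rpow (by positivity),
    Real.log_rpow hd, Real.log_pow, Real.log_pow, Real.log_mul hA0.ne' hq1.ne',
    Real.log_mul hd.ne' hy1.ne']
  refine le_of_eq_of_le ?_ c3
  congr 1
  push_cast
  ring

end Crest.Agent.R131.Depth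
end
end

-- ▼ part PVc/R131/StDepth
section

/-!
# Row 131, B1: depth of uniformly nondegenerate minima (helper10)
-/

set_option autoImplicit false

open Metric Complex
open scoped ComplexConjugate

noncomputable section

namespace Crest.Agent.R131

theorem minDepth : MinDepth := by
  intro K δ hδ
  set K' := max K 0 with hK'
  have hK0 : 0 ≤ K' := le_max_right _ _
  set L := Real.exp K' with hL
  have hL1 : 1 ≤ L := Real.one_le_exp hK0
  set δ' := min δ 1 with hδ'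
  have hδ0 : 0 < δ' := lt_min hδ one_pos
  have hδ1 : δ' ≤ 1 := min_le_right _ _
  have hδ2 : δ' ≤ δ := min_le_left _ _
  set B := 2 + 30 * K' with hB
  have hB1 : 1 ≤ B := by linarith
  set σ := δ' / (1200 * L * B) with hσ
  have hσ0 : 0 < σ := by positivity
  have hσe : σ * (1200 * L * B) = δ' := by rw [hσ]; field_simp
  have hLσ : 0 < L * σ := by positivity
  have hBσ : 0 < B * σ := by positivity
  have s1 : 1200 * L * σ ≤ δ' := by nlinarith
  have s2 : B * σ ≤ δ' := by nlinarith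
  have s3 : σ ≤ 1 / (64 * L) := by
    rw [le_div_iff₀ (by positivity)]; nlinarith
  have s4 : σ ≤ 1 / 8 := by nlinarith
  refine ⟨δ' * σ ^ 2 / 2, by positivity, fun c f hc0 hc1 hf m hm hm0 hX => ?_⟩
  have hd := Depth.d_pos hm
  have hm1 : ‖m‖ < 1 := mem_ball_zero_iff.1 hm
  have hpre : ∀ z ∈ ball (0 : ℂ) 1,
      (1 - ‖z‖ ^ 2) * ‖deriv (deriv f) z‖ ≤ K' * ‖deriv f z‖ := fun z hz =>
    (hf.pre z hz).trans (mul_le_mul_of_nonneg_right (le_max_left _ _) (norm_nonneg _))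
  have hH := Depth.harnack hK0 hf.diff hpre hm
  refine ⟨(1 - ‖m‖ ^ 2) * σ, by positivity, fun z hz => ?_, fun z hz => ?_⟩
  · have hψ : DifferentiableOn ℂ (deriv f) (ball 0 1) := hf.diff.deriv isOpen_ball
    have hφ : DifferentiableOn ℂ (fun z => deriv (deriv f) z / deriv f z) (ball 0 1) :=
      (hψ.deriv isOpen_ball).div hψ hf.ne
    have hb : ∀ z ∈ ball (0 : ℂ) 1,
        (1 - ‖z‖ ^ 2) * ‖deriv (deriv f) z / deriv f z‖ ≤ K' := fun z hz => by
      rw [norm_div, ← mul_div_assoc, div_le_iff₀ (norm_pos_iff.2 (hf.ne z hz))]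
      exact hpre z hz
    rw [mem_closedBall, dist_eq_norm] at hz
    have key := Lip.PP_lip (c := c) (by linarith) (by linarith) hφ hb hm1 (z := z) (w := m)
      (by nlinarith) (by rw [sub_self, norm_zero]; positivity)
    have e : ∀ w, Lip.PP (fun z => deriv (deriv f) z / deriv f z) c w = stX c f w := fun _ => rfl
    rw [e, e, ← hB] at key
    have k2 : B * ‖z - m‖ / (1 - ‖m‖ ^ 2) ≤ δ' := by
      rw [div_le_iff₀ hd]
      calc B * ‖z - m‖ ≤ B * ((1 - ‖m‖ ^ 2) * σ) := by gcongr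
        _ = B * σ * (1 - ‖m‖ ^ 2) := by ring
        _ ≤ δ' * (1 - ‖m‖ ^ 2) := by gcongr
    have k3 := norm_add_le (stX c f m) (stX c f z - stX c f m)
    rw [add_sub_cancel] at k3
    linarith
  · rw [mem_sphere, dist_eq_norm] at hz
    have hdC : ((1 - ‖m‖ ^ 2 : ℝ) : ℂ) ≠ 0 := by exact_mod_cast hd.ne'
    set s : ℂ := (z - m) / ((1 - ‖m‖ ^ 2 : ℝ) : ℂ) with hs
    have hsn : ‖s‖ = σ := by
      rw [hs, norm_div, hz, Complex.norm_real, Real.norm_eq_abs, abs_of_pos hd]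
      field_simp
    have hzs : m + ((1 - ‖m‖ ^ 2 : ℝ) : ℂ) * s = z := by rw [hs]; field_simp; ring
    obtain ⟨g1, g2, g3⟩ := Depth.expand (c := c) (s := s) hL1 (by linarith) (by linarith) hf.diff
      hm hm0 (hf.ne m hm) hH (by rw [hsn]; exact s3)
    rw [hzs] at g2 g3
    have eX : sX f c m = stX c f m := by unfold stX sX; rw [mul_div_assoc]
    have hre : (conj m / m * sX f c m * s ^ 2).re ≤ (1 - δ') * σ ^ 2 := by
      refine (Complex.re_le_norm _).trans ?_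
      rw [norm_mul, norm_mul, norm_div, Complex.norm_conj, div_self (norm_ne_zero_iff.2 hm0),
        one_mul, norm_pow, hsn, eX]
      gcongr
      linarith
    rw [hsn] at g3
    have g4 := (abs_le.1 g3).1
    have hσ2 : 0 < σ ^ 2 := by positivity
    have g5 : δ' * σ ^ 2 ≤ (1 + c) * (σ ^ 2 - (conj m / m * sX f c m * s ^ 2).re) := by
      have : δ' * σ ^ 2 ≤ σ ^ 2 - (conj m / m * sX f c m * s ^ 2).re := by linarith
      have h0 : 0 < δ' * σ ^ 2 := by positivity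
      nlinarith
    have g6 : 600 * L * σ ^ 3 ≤ δ' * σ ^ 2 / 2 := by nlinarith
    change Real.exp (δ' * σ ^ 2 / 2) * sG f c (sF f c m) m ≤ sG f c (sF f c m) z
    rw [← Real.exp_log g1, ← Real.exp_log g2, ← Real.exp_add]
    exact Real.exp_le_exp.2 (by linarith)

end Crest.Agent.R131
end
end

-- ▼ part PVc/R131/Fin87

/-! Row 131 (helper87): the final assembly of S0177 and S0178. -/

set_option autoImplicit false

open MeasureTheory Set Metric
open scoped ENNReal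

noncomputable section

namespace Crest.Agent.R131.F87

theorem mass_fin {al b : ℝ} (hal : 0 < al) (hb : 0 < b) {f : ℂ → ℂ} {R : ℝ} (hR : 1 < R)
    (hf : DifferentiableOn ℂ f (ball 0 R)) (hinj : InjOn f (ball 0 R)) :
    ∫⁻ z in ball (0 : ℂ) 1, ENNReal.ofReal (bW f al b z) ≠ ⊤ := by
  obtain ⟨g, hg, h1, -⟩ := exists_root f R hf hinj al
  have e := W87.lint_mass (τ := 2 * al) (by linarith) hb hR hg (fun _ => 1) (fun _ => 0)
    (by fun_prop) (by fun_prop)
  have e2 : ∫⁻ z in ball (0 : ℂ) 1, ENNReal.ofReal (bW f al b z) = _ :=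
    Eq.trans (setLIntegral_congr_fun measurableSet_ball fun z hz => by
      simp only [bW, Complex.ofReal_one, one_mul, Complex.ofReal_zero, zero_mul, sub_zero,
        h1 z (ball_subset_ball hR.le hz), mul_assoc]) e
  rw [e2]
  exact ENNReal.ofReal_ne_top

theorem weightsF (al c b η : ℝ) (hal : 0 < al) (hal1 : al ≤ 1) (hb : 0 < b) (hη : η ≤ 1)
    (hθ : 0 < (c - 2 * b / (2 * al)) ^ 2 + 4 * b / (2 * al) ^ 2 - 1 + η) (C₀ : ℝ) (hC : 0 ≤ C₀) :
    ∃ K : ℝ, ∀ (f : ℂ → ℂ) (R : ℝ), 1 < R → DifferentiableOn ℂ f (ball 0 R) →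
      InjOn f (ball 0 R) → deriv f 0 = 1 →
      ∫⁻ z in ball (0 : ℂ) 1, ENNReal.ofReal (‖sX f c z‖ ^ 2 * bW f al b z) ≤
        ENNReal.ofReal (1 - η) * (∫⁻ z in ball (0 : ℂ) 1, ENNReal.ofReal (bW f al b z)) +
          ENNReal.ofReal C₀ →
      ∀ r : ℝ, 1 / 2 ≤ r → r < 1 →
        ∫⁻ θ in Ioc (-Real.pi) Real.pi, ENNReal.ofReal
          (‖deriv f ((r : ℂ) * Complex.exp ((θ : ℂ) * Complex.I))‖ ^ (-(2 * al))) ≤
          ENNReal.ofReal (K * (1 - r) ^ (-b)) := by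
  obtain ⟨K, hK, r₀, hr₀, H⟩ := weights87 (2 * al) c b η (by linarith) (by linarith) hb hη hθ
  refine ⟨K * (C₀ + Real.exp (50000 / (1 - r₀)) ^ (2 * al)), fun f R hR hf hinj h1 hI r hr1 hr2 => ?_⟩
  obtain ⟨g, hg, g1, g2⟩ := exists_root f R hf hinj al
  have hsub : ball (0 : ℂ) 1 ⊆ ball 0 R := ball_subset_ball hR.le
  have := H g R hR hg C₀ (Real.exp (50000 / (1 - r₀)) ^ (2 * al)) hC ?_ (by positivity) ?_ r hr1 hr2
  · refine le_trans (le_of_eq (lintegral_congr fun θ => ?_)) this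
    rw [g1]
    exact W87.pt_mem (r := r) (by rw [abs_of_pos (by linarith)]; linarith) θ
  · intro z hz
    have hz1 : ‖z‖ < 1 := lt_of_le_of_lt hz hr₀
    have hzb : z ∈ ball (0 : ℂ) 1 := by simpa using hz1
    have h := harnack13 f (hf.mono hsub) (hinj.mono hsub) hr₀ (z := z) (w := 0) hz
      (by simpa using (norm_nonneg z).trans hz)
    rw [h1, norm_one, zero_sub, norm_neg] at h
    have hp : 0 < 1 - r₀ := by linarith
    have h2 : Real.exp (50000 / (1 - r₀) * ‖z‖) ≤ Real.exp (50000 / (1 - r₀)) :=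
      Real.exp_le_exp.2 (mul_le_of_le_one_right (by positivity) hz1.le)
    have h3 : 1 ≤ Real.exp (50000 / (1 - r₀)) * ‖deriv f z‖ :=
      h.trans (mul_le_mul_of_nonneg_right h2 (norm_nonneg _))
    have h4 : 0 < ‖deriv f z‖ := by
      rcases (norm_nonneg (deriv f z)).eq_or_lt with h0 | h0
      · rw [← h0] at h3; norm_num at h3
      · exact h0
    rw [g1 z (hsub hzb), Real.rpow_neg h4.le, ← Real.inv_rpow h4.le]
    refine Real.rpow_le_rpow (by positivity) ?_ (by linarith)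
    rw [inv_le_iff_one_le_mul₀ h4]
    exact h3
  · convert hI using 1
    · refine setLIntegral_congr_fun measurableSet_ball fun z hz => ?_
      have e := root_X (f := f) (g := g) (c := c) hal.ne' (g2 z (hsub hz))
      have e2 : ((2 / (2 * al) * (1 - ‖z‖ ^ 2) : ℝ) : ℂ) * (z * deriv g z) =
          (((1 - ‖z‖ ^ 2) / al : ℝ) : ℂ) * z * deriv g z := by
        rw [← mul_assoc]
        congr 3
        field_simp
      rw [e2, e, norm_mul, mul_pow, g1 z (hsub hz), bW]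
      congr 1
      ring
    · congr 2
      refine setLIntegral_congr_fun measurableSet_ball fun z hz => ?_
      rw [g1 z (hsub hz), bW, mul_assoc]

theorem sq_le {X W : ℂ → ℝ} (hX : Measurable X) (hW : Measurable W)
    (hX0 : ∀ z, 0 ≤ X z) (hW0 : ∀ z ∈ ball (0 : ℂ) 1, 0 ≤ W z)
    (hM : ∫⁻ z in ball (0 : ℂ) 1, ENNReal.ofReal (W z) ≠ ⊤)
    (h : ∫⁻ z in ball (0 : ℂ) 1, ENNReal.ofReal ((X z - 1) * W z) ≤
      ∫⁻ z in ball (0 : ℂ) 1, ENNReal.ofReal ((1 - X z) * W z)) :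
    ∫⁻ z in ball (0 : ℂ) 1, ENNReal.ofReal (X z * W z) ≤
      ∫⁻ z in ball (0 : ℂ) 1, ENNReal.ofReal (W z) := by
  have hb : ∫⁻ z in ball (0 : ℂ) 1, ENNReal.ofReal ((1 - X z) * W z) ≠ ⊤ := by
    refine ne_top_of_le_ne_top hM (setLIntegral_mono' measurableSet_ball fun z hz => ?_)
    exact ENNReal.ofReal_le_ofReal (by nlinarith [hX0 z, hW0 z hz])
  have e : (∫⁻ z in ball (0 : ℂ) 1, ENNReal.ofReal (X z * W z)) +
      ∫⁻ z in ball (0 : ℂ) 1, ENNReal.ofReal ((1 - X z) * W z) =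
      (∫⁻ z in ball (0 : ℂ) 1, ENNReal.ofReal (W z)) +
      ∫⁻ z in ball (0 : ℂ) 1, ENNReal.ofReal ((X z - 1) * W z) := by
    rw [← lintegral_add_left (by fun_prop), ← lintegral_add_left (by fun_prop)]
    refine setLIntegral_congr_fun measurableSet_ball fun z hz => ?_
    have h0 := hW0 z hz
    have h1 := hX0 z
    rcases le_total (X z) 1 with h2 | h2
    · rw [← ENNReal.ofReal_add (by positivity) (by nlinarith),
        ENNReal.ofReal_of_nonpos (p := (X z - 1) * W z) (by nlinarith), add_zero]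
      congr 1; ring
    · rw [← ENNReal.ofReal_add h0 (by nlinarith),
        ENNReal.ofReal_of_nonpos (p := (1 - X z) * W z) (by nlinarith), add_zero]
      congr 1; ring
  refine (ENNReal.add_le_add_iff_right hb).1 ?_
  rw [e]
  gcongr

theorem enorm_inv_pow {w : ℂ} (hw : w ≠ 0) (n : ℕ) :
    (‖w‖ₑ)⁻¹ ^ n = ENNReal.ofReal (‖w‖ ^ (-(n : ℝ))) := by
  have h : 0 < ‖w‖ := norm_pos_iff.2 hw
  rw [← ofReal_norm, ← ENNReal.ofReal_inv_of_pos h, ← ENNReal.ofReal_pow (by positivity),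
    Real.rpow_neg h.le, Real.rpow_natCast, inv_pow]

theorem d_ne {f : ℂ → ℂ} {R r : ℝ} (hR : 1 < R) (hf : DifferentiableOn ℂ f (ball 0 R))
    (hinj : InjOn f (ball 0 R)) (h1 : deriv f 0 = 1) {z : ℂ} (hz : ‖z‖ ≤ r) (hr : r < 1) :
    deriv f z ≠ 0 := by
  have hsub : ball (0 : ℂ) 1 ⊆ ball 0 R := ball_subset_ball hR.le
  have h := harnack13 f (hf.mono hsub) (hinj.mono hsub) hr (z := z) (w := 0) hz
    (by simpa using (norm_nonneg z).trans hz)
  intro h0
  rw [h1, h0] at h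
  norm_num at h

theorem s78 (ε : ℝ) (hε : 0 < ε) :
    ∃ C : ℝ, ∀ f : ℂ → ℂ,
      DifferentiableOn ℂ f (Metric.ball 0 1) → Set.InjOn f (Metric.ball 0 1) → f 0 = 0 →
      deriv f 0 = 1 → ∀ r : ℝ, 1 / 2 ≤ r → r < 1 →
        ∫⁻ θ in Set.Ioc (-Real.pi) Real.pi,
            (‖deriv f ((r : ℂ) * Complex.exp ((θ : ℂ) * Complex.I))‖ₑ)⁻¹ ^ 2 ≤
          ENNReal.ofReal (2 * Real.pi * C * (1 - r) ^ (-1 - ε)) := by
  refine Crest.Agent.R131.Dilate.dilate (fun w => (‖w‖ₑ)⁻¹ ^ 2) (-1 - ε) (by linarith) ?_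
  obtain ⟨K, H⟩ := weightsF 1 (1 + ε / 2) (1 + ε) 0 one_pos le_rfl (by linarith) zero_le_one
    (by nlinarith [sq_nonneg (1 + ε / 2 - 2 * (1 + ε) / (2 * 1))]) 0 le_rfl
  refine ⟨K, fun f R hR hf hinj _ h1 r hr1 hr2 => ?_⟩
  have h := H f R hR hf hinj h1 ?_ r hr1 hr2
  · rw [show -1 - ε = -(1 + ε) by ring]
    refine le_trans (le_of_eq (lintegral_congr fun θ => ?_)) h
    refine (enorm_inv_pow (d_ne hR hf hinj h1 (r := r)
      (le_of_eq ((W87.norm_pt r θ).trans (abs_of_pos (by linarith)))) hr2) 2).trans ?_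
    norm_num [W87.pt]
  · simp only [sub_zero, ENNReal.ofReal_one, one_mul, ENNReal.ofReal_zero, add_zero]
    exact sq_le ((measurable_sX36 f _).norm.pow_const 2) (measurable_bW f _ _)
      (fun z => by positivity) (fun z hz => bW_nonneg f _ _ hz)
      (mass_fin one_pos (by linarith) hR hf hinj)
      (star_W1 f R hR hf hinj _ 1 _ (by linarith) (by norm_num) (by ring))

theorem stW_eq (b : ℝ) (f : ℂ → ℂ) (z : ℂ) : stW b f z = bW f (1 / 2) b z := by
  simp only [stW, bW]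
  rw [show -(2 * (1 / 2 : ℝ)) = -1 by norm_num, show 2 * (1 / 2 : ℝ) - 2 = -1 by norm_num,
    Real.rpow_neg_one, Real.rpow_neg_one, mul_assoc]

theorem s77 :
    ∃ ε : ℝ, 0 < ε ∧ ε < 1 / 4 ∧ ∃ C : ℝ, ∀ f : ℂ → ℂ,
      DifferentiableOn ℂ f (Metric.ball 0 1) → Set.InjOn f (Metric.ball 0 1) → f 0 = 0 →
      deriv f 0 = 1 → ∀ r : ℝ, 1 / 2 ≤ r → r < 1 →
        ∫⁻ θ in Set.Ioc (-Real.pi) Real.pi,
            (‖deriv f ((r : ℂ) * Complex.exp ((θ : ℂ) * Complex.I))‖ₑ)⁻¹ ≤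
          ENNReal.ofReal (2 * Real.pi * C * (1 - r) ^ (-(1 / 4 : ℝ) + ε)) := by
  obtain ⟨η, hη, hη2, C, hG⟩ := stGain minDepth nonDeg 100000
  refine ⟨η / 10, by positivity, by linarith, ?_⟩
  refine Crest.Agent.R131.Dilate.dilate (fun w => (‖w‖ₑ)⁻¹) (-(1 / 4 : ℝ) + η / 10) (by linarith) ?_
  set b : ℝ := 1 / 4 - η / 10 with hb
  have hb0 : 0 < b := by rw [hb]; linarith
  obtain ⟨K, H⟩ := weightsF (1 / 2) ((1 + 2 * b) / 3) b η (by norm_num) (by norm_num) hb0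
    (by linarith) (by
      have := sq_nonneg ((1 + 2 * b) / 3 - 2 * b / (2 * (1 / 2)))
      have e : 4 * b / (2 * (1 / 2)) ^ 2 = 1 - 4 * η / 10 := by rw [hb]; ring
      rw [e]; linarith) (max C 0) (le_max_right _ _)
  refine ⟨K, fun f R hR hf hinj _ h1 r hr1 hr2 => ?_⟩
  have hsub : ball (0 : ℂ) 1 ⊆ ball 0 R := ball_subset_ball hR.le
  have h := H f R hR hf hinj h1 ?_ r hr1 hr2
  · rw [show -(1 / 4 : ℝ) + η / 10 = -b by rw [hb]; ring]
    refine le_trans (le_of_eq (lintegral_congr fun θ => ?_)) h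
    have := enorm_inv_pow (d_ne hR hf hinj h1 (r := r)
      (le_of_eq ((W87.norm_pt r θ).trans (abs_of_pos (by linarith)))) hr2) 1
    rw [pow_one] at this
    refine this.trans ?_
    norm_num [W87.pt]
  · have hok : StOK 100000 f := ⟨hf.mono hsub,
      fun z hz => d_ne hR hf hinj h1 le_rfl (by simpa using hz),
      fun z hz => dist13 f (hf.mono hsub) (hinj.mono hsub) z hz⟩
    have hM : stM b f = ∫⁻ z in ball (0 : ℂ) 1, ENNReal.ofReal (bW f (1 / 2) b z) := by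
      simp only [stM, stW_eq]
    have hfin : stM b f ≠ ⊤ := by rw [hM]; exact mass_fin (by norm_num) hb0 hR hf hinj
    have h2 := hG b f (by rw [hb]; linarith) (by rw [hb]; linarith) hok h1
      (starP _ f R hR hf hinj (by linarith)) hfin
    simp only [stW_eq, stX_eq] at h2
    rw [← hM]
    have hfin2 : ENNReal.ofReal η * stM b f ≠ ⊤ := ENNReal.mul_ne_top ENNReal.ofReal_ne_top hfin
    refine (ENNReal.add_le_add_iff_right hfin2).1 (h2.trans ?_)
    rw [add_right_comm, ← add_mul, ← ENNReal.ofReal_add (by linarith) hη.le, sub_add_cancel,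
      ENNReal.ofReal_one, one_mul]
    gcongr
    exact le_max_left _ _

end Crest.Agent.R131.F87
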