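import Mathlib
import Crest.Agent.PVc.R131.StarDefs
import Crest.Agent.PVc.Lib.Complex.Univalent

-- ▼ part PVc/R131/Area
section

/-!
# Row 131: the area formula with multiplicities in the plane (helper74)
-/

set_option autoImplicit false

open MeasureTheory Set Filter Topology Function
open scoped ENNReal

namespace Crest.Agent.R131.Area

theorem exists_nhds_injOn {F : ℂ → ℂ} {A : ℂ →L[ℝ] ℂ} {z : ℂ} (h : HasStrictFDerivAt F A z)
    (hd : A.det ≠ 0) : ∃ U, IsOpen U ∧ z ∈ U ∧ InjOn F U := by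
  have h' : HasStrictFDerivAt F
      ((A.toContinuousLinearEquivOfDetNeZero hd : ℂ ≃L[ℝ] ℂ) : ℂ →L[ℝ] ℂ) z := by
    simpa using h
  refine ⟨(h'.toOpenPartialHomeomorph F).source, (h'.toOpenPartialHomeomorph F).open_source,
    h'.mem_toOpenPartialHomeomorph_source, ?_⟩
  have := (h'.toOpenPartialHomeomorph F).injOn
  simpa using this

theorem exists_partition {F : ℂ → ℂ} {S : Set ℂ} (hS : MeasurableSet S)
    (h : ∀ z ∈ S, ∃ U, IsOpen U ∧ z ∈ U ∧ InjOn F U) :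
    ∃ T : ℕ → Set ℂ, (∀ n, MeasurableSet (T n)) ∧ Pairwise (Disjoint on T) ∧ ⋃ n, T n = S ∧
      ∀ n, InjOn F (T n) := by
  classical
  choose! U hUo hUm hUi using h
  obtain ⟨s, hsS, hsc, hcov⟩ := TopologicalSpace.countable_cover_nhdsWithin
    (s := S) (f := U) (fun z hz => mem_nhdsWithin_of_mem_nhds ((hUo z hz).mem_nhds (hUm z hz)))
  rcases s.eq_empty_or_nonempty with rfl | hne
  · have : S = ∅ := by simpa using hcov
    subst this
    exact ⟨fun _ => ∅, by simp, fun _ _ _ => by simp [onFun], by simp, by simp⟩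
  obtain ⟨e, he⟩ := hsc.exists_eq_range hne
  have heS : ∀ n, e n ∈ S := fun n => hsS (he ▸ mem_range_self n)
  let V : ℕ → Set ℂ := fun n => S ∩ U (e n)
  have hV : ∀ n, MeasurableSet (V n) := fun n => hS.inter (hUo _ (heS n)).measurableSet
  refine ⟨disjointed V, MeasurableSet.disjointed hV, disjoint_disjointed V, ?_, fun n => ?_⟩
  · rw [iUnion_disjointed]
    refine Subset.antisymm (iUnion_subset fun n => inter_subset_left) fun z hz => ?_
    obtain ⟨w, hw, hzw⟩ := mem_iUnion₂.1 (hcov hz)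
    rw [he] at hw
    obtain ⟨n, rfl⟩ := hw
    exact mem_iUnion.2 ⟨n, hz, hzw⟩
  · exact (hUi _ (heS n)).mono ((disjointed_subset V n).trans inter_subset_right)

/-- the sum of `φ` over the fibre of `F` over `a` inside `S` -/
noncomputable def fibSum (F : ℂ → ℂ) (S : Set ℂ) (φ : ℂ → ℝ≥0∞) (a : ℂ) : ℝ≥0∞ :=
  ∑' z : ℂ, {z | z ∈ S ∧ F z = a}.indicator φ z

theorem fibSum_eq_subtype (F : ℂ → ℂ) (S : Set ℂ) (φ : ℂ → ℝ≥0∞) (a : ℂ) :
    fibSum F S φ a = ∑' z : {z | z ∈ S ∧ F z = a}, φ z :=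
  (tsum_subtype _ φ).symm

theorem fibSum_iUnion {F : ℂ → ℂ} {T : ℕ → Set ℂ} (hd : Pairwise (Disjoint on T))
    (φ : ℂ → ℝ≥0∞) (a : ℂ) : fibSum F (⋃ n, T n) φ a = ∑' n, fibSum F (T n) φ a := by
  unfold fibSum
  rw [ENNReal.tsum_comm]
  refine tsum_congr fun z => ?_
  by_cases hz : z ∈ (⋃ n, T n) ∧ F z = a
  · obtain ⟨n, hn⟩ := mem_iUnion.1 hz.1
    rw [tsum_eq_single n]
    · rw [indicator_of_mem (show z ∈ {z | z ∈ (⋃ n, T n) ∧ F z = a} from hz),
        indicator_of_mem (show z ∈ {z | z ∈ T n ∧ F z = a} from ⟨hn, hz.2⟩)]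
    · intro m hm
      exact indicator_of_notMem (fun h => Set.disjoint_left.1 (hd hm) h.1 hn) _
  · rw [indicator_of_notMem (show z ∉ {z | z ∈ (⋃ n, T n) ∧ F z = a} from hz)]
    refine (ENNReal.tsum_eq_zero.2 fun n => ?_).symm
    exact indicator_of_notMem (fun h => hz ⟨mem_iUnion.2 ⟨n, h.1⟩, h.2⟩) _

theorem fibSum_of_injOn {F : ℂ → ℂ} {T : Set ℂ} (hi : InjOn F T) (φ : ℂ → ℝ≥0∞) (a : ℂ) :
    fibSum F T φ a = extend (T.domRestrict F) (fun z : T => φ z) 0 a := by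
  unfold fibSum
  have hinj : Injective (T.domRestrict F) := fun x y h => Subtype.ext (hi x.2 y.2 h)
  by_cases h : ∃ z ∈ T, F z = a
  · obtain ⟨z, hz, rfl⟩ := h
    rw [tsum_eq_single z]
    · rw [indicator_of_mem (show z ∈ {w | w ∈ T ∧ F w = F z} from ⟨hz, rfl⟩)]
      exact (hinj.extend_apply (fun z : T => φ z) 0 ⟨z, hz⟩).symm
    · intro w hw
      exact indicator_of_notMem (fun h => hw (hi h.1 hz h.2)) _
  · rw [extend_apply' (f := T.domRestrict F) _ _ _ (fun ⟨w, hw⟩ => h ⟨w.1, w.2, hw⟩)]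
    exact ENNReal.tsum_eq_zero.2 fun z => indicator_of_notMem (fun hz => h ⟨z, hz.1, hz.2⟩) _

theorem piece {F : ℂ → ℂ} {F1 : ℂ → ℂ →L[ℝ] ℂ} {T : Set ℂ} (hT : MeasurableSet T)
    (hF : ∀ z ∈ T, HasFDerivWithinAt F (F1 z) T z) (hi : InjOn F T) {φ : ℂ → ℝ≥0∞}
    (hφ : Measurable φ) : Measurable (fibSum F T φ) ∧
      ∫⁻ a, fibSum F T φ a = ∫⁻ z in T, ENNReal.ofReal |(F1 z).det| * φ z := by
  have he : fibSum F T φ = extend (T.domRestrict F) (fun z : T => φ z) 0 :=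
    funext (fibSum_of_injOn hi φ)
  have hinj : Injective (T.domRestrict F) := fun x y h => Subtype.ext (hi x.2 y.2 h)
  refine ⟨he ▸ (measurableEmbedding_of_fderivWithin hT hF hi).measurable_extend
    (hφ.comp measurable_subtype_coe) measurable_zero, ?_⟩
  have h1 : ∫⁻ a, fibSum F T φ a = ∫⁻ a in F '' T, fibSum F T φ a := by
    rw [← lintegral_indicator (measurable_image_of_fderivWithin hT hF hi)]
    refine lintegral_congr fun a => ?_
    by_cases ha : a ∈ F '' T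
    · rw [indicator_of_mem ha]
    · rw [indicator_of_notMem ha, he]
      exact extend_apply' _ _ _ (fun ⟨w, hw⟩ => ha ⟨w, w.2, hw⟩)
  rw [h1, lintegral_image_eq_lintegral_abs_det_fderiv_mul volume hT hF hi]
  refine setLIntegral_congr_fun hT fun z hz => ?_
  rw [he]
  exact congrArg _ (hinj.extend_apply (fun z : T => φ z) 0 ⟨z, hz⟩)

/-- **Area formula with multiplicities.** -/
theorem area_mult {F : ℂ → ℂ} {F1 : ℂ → ℂ →L[ℝ] ℂ} {S : Set ℂ} (hS : MeasurableSet S)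
    (hF : ∀ z ∈ S, HasStrictFDerivAt F (F1 z) z) (hd : ∀ z ∈ S, (F1 z).det ≠ 0)
    {φ : ℂ → ℝ≥0∞} (hφ : Measurable φ) :
    ∫⁻ z in S, ENNReal.ofReal |(F1 z).det| * φ z = ∫⁻ a, fibSum F S φ a := by
  obtain ⟨T, hTm, hTd, hTU, hTi⟩ :=
    exists_partition hS fun z hz => exists_nhds_injOn (hF z hz) (hd z hz)
  have hp : ∀ n, Measurable (fibSum F (T n) φ) ∧
      ∫⁻ a, fibSum F (T n) φ a = ∫⁻ z in T n, ENNReal.ofReal |(F1 z).det| * φ z := fun n =>
    piece (hTm n) (fun z hz => (hF z (hTU ▸ mem_iUnion.2 ⟨n, hz⟩)).hasFDerivAt.hasFDerivWithinAt)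
      (hTi n) hφ
  rw [← hTU, lintegral_iUnion hTm hTd]
  simp_rw [fibSum_iUnion hTd]
  rw [lintegral_tsum fun n => (hp n).1.aemeasurable]
  exact tsum_congr fun n => (hp n).2.symm

/-- an injective pairing of fibres compares the fibre sums -/
theorem fibSum_le_of_pairing {F : ℂ → ℂ} {S₁ S₂ : Set ℂ} {φ₁ φ₂ : ℂ → ℝ≥0∞} {a : ℂ}
    (π : ℂ → ℂ) (hπ : InjOn π {z | z ∈ S₁ ∧ F z = a})
    (h : ∀ z ∈ S₁, F z = a → π z ∈ S₂ ∧ F (π z) = a ∧ φ₁ z ≤ φ₂ (π z)) :
    fibSum F S₁ φ₁ a ≤ fibSum F S₂ φ₂ a := by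
  rw [fibSum_eq_subtype, fibSum_eq_subtype]
  let e : {z | z ∈ S₁ ∧ F z = a} → {z | z ∈ S₂ ∧ F z = a} := fun z =>
    ⟨π z, (h z z.2.1 z.2.2).1, (h z z.2.1 z.2.2).2.1⟩
  have he : Injective e := fun x y hxy => Subtype.ext (hπ x.2 y.2 (congrArg Subtype.val hxy))
  refine le_trans ?_ (ENNReal.tsum_comp_le_tsum_of_injective he fun z => φ₂ z)
  exact ENNReal.tsum_le_tsum fun z => (h z.1 z.2.1 z.2.2).2.2

/-- **Comparison of weighted Jacobian integrals from an a.e. inequality of fibre sums.** -/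
theorem area_compare' {F : ℂ → ℂ} {F1 : ℂ → ℂ →L[ℝ] ℂ} {S₁ S₂ : Set ℂ} (hS₁ : MeasurableSet S₁)
    (hS₂ : MeasurableSet S₂) (hF₁ : ∀ z ∈ S₁, HasStrictFDerivAt F (F1 z) z)
    (hF₂ : ∀ z ∈ S₂, HasStrictFDerivAt F (F1 z) z) (hd₁ : ∀ z ∈ S₁, (F1 z).det ≠ 0)
    (hd₂ : ∀ z ∈ S₂, (F1 z).det ≠ 0) {φ₁ φ₂ : ℂ → ℝ≥0∞} (hφ₁ : Measurable φ₁)
    (hφ₂ : Measurable φ₂) (h : ∀ᵐ a, fibSum F S₁ φ₁ a ≤ fibSum F S₂ φ₂ a) :
    ∫⁻ z in S₁, ENNReal.ofReal |(F1 z).det| * φ₁ z ≤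
      ∫⁻ z in S₂, ENNReal.ofReal |(F1 z).det| * φ₂ z := by
  rw [area_mult hS₁ hF₁ hd₁ hφ₁, area_mult hS₂ hF₂ hd₂ hφ₂]
  exact lintegral_mono_ae h

/-- **Comparison of weighted Jacobian integrals from an a.e. injective pairing of fibres.** -/
theorem area_compare {F : ℂ → ℂ} {F1 : ℂ → ℂ →L[ℝ] ℂ} {S₁ S₂ : Set ℂ} (hS₁ : MeasurableSet S₁)
    (hS₂ : MeasurableSet S₂) (hF₁ : ∀ z ∈ S₁, HasStrictFDerivAt F (F1 z) z)
    (hF₂ : ∀ z ∈ S₂, HasStrictFDerivAt F (F1 z) z) (hd₁ : ∀ z ∈ S₁, (F1 z).det ≠ 0)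
    (hd₂ : ∀ z ∈ S₂, (F1 z).det ≠ 0) {φ₁ φ₂ : ℂ → ℝ≥0∞} (hφ₁ : Measurable φ₁)
    (hφ₂ : Measurable φ₂)
    (h : ∀ᵐ a, ∃ π : ℂ → ℂ, InjOn π {z | z ∈ S₁ ∧ F z = a} ∧
      ∀ z ∈ S₁, F z = a → π z ∈ S₂ ∧ F (π z) = a ∧ φ₁ z ≤ φ₂ (π z)) :
    ∫⁻ z in S₁, ENNReal.ofReal |(F1 z).det| * φ₁ z ≤
      ∫⁻ z in S₂, ENNReal.ofReal |(F1 z).det| * φ₂ z :=
  area_compare' hS₁ hS₂ hF₁ hF₂ hd₁ hd₂ hφ₁ hφ₂
    (h.mono fun _ ⟨π, hπ, hh⟩ => fibSum_le_of_pairing π hπ hh)

/-- **Sard**: almost every value is regular. -/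
theorem sard {F : ℂ → ℂ} {F1 : ℂ → ℂ →L[ℝ] ℂ} {U : Set ℂ}
    (hF : ∀ z ∈ U, HasFDerivAt F (F1 z) z) : ∀ᵐ a, ∀ z ∈ U, F z = a → (F1 z).det ≠ 0 := by
  have h := addHaar_image_eq_zero_of_det_fderivWithin_eq_zero (volume : Measure ℂ)
    (s := {z | z ∈ U ∧ (F1 z).det = 0}) (f := F) (f' := F1)
    (fun z hz => (hF z hz.1).hasFDerivWithinAt) (fun z hz => hz.2)
  refine (measure_eq_zero_iff_ae_notMem.1 h).mono fun a ha z hz hza hd => ha ⟨z, ⟨hz, hd⟩, hza⟩

/-- almost every value is not attained on the unit circle -/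
theorem ae_notMem_image_sphere {f : ℂ → ℂ} (hf : ∀ z : ℂ, ‖z‖ = 1 → DifferentiableAt ℂ f z) :
    ∀ᵐ a, ∀ z : ℂ, ‖z‖ = 1 → f z ≠ a := by
  have h := addHaar_image_eq_zero_of_differentiableOn_of_addHaar_eq_zero (volume : Measure ℂ)
    (s := Metric.sphere (0 : ℂ) 1) (f := f)
    (fun z hz => ((hf z (by simpa using hz)).restrictScalars ℝ).differentiableWithinAt)
    (Measure.addHaar_sphere _ _ _)
  refine (measure_eq_zero_iff_ae_notMem.1 h).mono fun a ha z hz hza => ha ⟨z, by simpa using hz, hza⟩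

end Crest.Agent.R131.Area
end

-- ▼ part PVc/R131/Jac
section

/-! Row 131: the critical-value map `F z = f z + (1-|z|²) f'(z) / ((1+c) conj z)`,
its real derivative and Jacobian determinant (helper74). -/

open Complex Metric Set MeasureTheory
open scoped ComplexConjugate

namespace Crest.Agent.R131.JacF

/-- The real-linear map `w ↦ A w + B conj w`. -/
noncomputable def lin (A B : ℂ) : ℂ →L[ℝ] ℂ :=
  A • (ContinuousLinearMap.id ℝ ℂ) + B • (Complex.conjCLE : ℂ →L[ℝ] ℂ)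

@[simp] lemma lin_apply (A B w : ℂ) : lin A B w = A * w + B * conj w := by
  simp [lin]

lemma det_lin (A B : ℂ) : (lin A B).det = ‖A‖ ^ 2 - ‖B‖ ^ 2 := by
  rw [ContinuousLinearMap.det, ← LinearMap.det_toMatrix Complex.basisOneI, Matrix.det_fin_two]
  simp only [LinearMap.toMatrix_apply, Complex.coe_basisOneI, Complex.coe_basisOneI_repr,
    ContinuousLinearMap.coe_coe, lin_apply, Complex.sq_norm, Complex.normSq_apply]
  simp
  ring


/-- The critical-value map. -/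
noncomputable def Fm (f : ℂ → ℂ) (c : ℝ) (z : ℂ) : ℂ :=
  f z + ((1 - ‖z‖ ^ 2 : ℝ) : ℂ) * deriv f z / (((1 + c : ℝ) : ℂ) * conj z)

/-- `∂F/∂z`. -/
noncomputable def Fz (f : ℂ → ℂ) (c : ℝ) (z : ℂ) : ℂ :=
  ((c : ℂ) * deriv f z + deriv (deriv f) z * ((conj z)⁻¹ - z)) / ((1 + c : ℝ) : ℂ)

/-- `∂F/∂z̄`. -/
noncomputable def Fzb (f : ℂ → ℂ) (c : ℝ) (z : ℂ) : ℂ :=
  -deriv f z / (((1 + c : ℝ) : ℂ) * (conj z) ^ 2)

/-- The real derivative of `Fm`. -/
noncomputable def F1 (f : ℂ → ℂ) (c : ℝ) (z : ℂ) : ℂ →L[ℝ] ℂ := lin (Fz f c z) (Fzb f c z)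

lemma Fm_eq (f : ℂ → ℂ) (c : ℝ) (z : ℂ) :
    Fm f c z = f z + deriv f z * ((conj z)⁻¹ - z) * (((1 + c : ℝ) : ℂ))⁻¹ := by
  unfold Fm
  by_cases hz : z = 0
  · subst hz; simp
  have hz' : conj z ≠ 0 := by simpa using hz
  have h1 : ((1 - ‖z‖ ^ 2 : ℝ) : ℂ) = 1 - z * conj z := by
    rw [Complex.mul_conj, Complex.normSq_eq_norm_sq]; push_cast; ring
  rw [h1]
  by_cases hc : ((1 + c : ℝ) : ℂ) = 0
  · rw [hc]; simp
  field_simp

theorem hasStrictFDerivAt_Fm {f : ℂ → ℂ} {c : ℝ} (hc : 1 + c ≠ 0) {z : ℂ}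
    (hf : AnalyticAt ℂ f z) (hz : z ≠ 0) :
    HasStrictFDerivAt (Fm f c) (F1 f c z) z := by
  have hz' : conj z ≠ 0 := by simpa using hz
  have hc' : ((1 + c : ℝ) : ℂ) ≠ 0 := by exact_mod_cast hc
  have h0 : HasStrictFDerivAt f
      ((ContinuousLinearMap.toSpanSingleton ℂ (deriv f z)).restrictScalars ℝ) z :=
    hf.hasStrictDerivAt.hasStrictFDerivAt.restrictScalars ℝ
  have h1 : HasStrictFDerivAt (deriv f)
      ((ContinuousLinearMap.toSpanSingleton ℂ (deriv (deriv f) z)).restrictScalars ℝ) z :=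
    hf.deriv.hasStrictDerivAt.hasStrictFDerivAt.restrictScalars ℝ
  have h2 : HasStrictFDerivAt (fun w : ℂ => conj w) (Complex.conjCLE : ℂ →L[ℝ] ℂ) z :=
    (Complex.conjCLE : ℂ →L[ℝ] ℂ).hasStrictFDerivAt
  have h3 : HasStrictFDerivAt (fun w : ℂ => w⁻¹)
      ((ContinuousLinearMap.toSpanSingleton ℂ (-((conj z) ^ 2)⁻¹)).restrictScalars ℝ) (conj z) :=
    (hasStrictDerivAt_inv hz').hasStrictFDerivAt.restrictScalars ℝ
  have h4 := h3.comp z h2
  have h5 := h4.sub (hasStrictFDerivAt_id (𝕜 := ℝ) z)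
  have h6 := h0.add ((h1.mul h5).mul_const (((1 + c : ℝ) : ℂ))⁻¹)
  have he : Fm f c = fun w => f w + deriv f w * ((conj w)⁻¹ - w) * (((1 + c : ℝ) : ℂ))⁻¹ :=
    funext (Fm_eq f c)
  rw [he]
  refine HasStrictFDerivAt.congr_fderiv h6 ?_
  refine ContinuousLinearMap.ext fun w => ?_
  have hc'' : (1 + (c : ℂ)) ≠ 0 := by exact_mod_cast hc
  simp only [F1, lin_apply, Fz, Fzb]
  simp
  field_simp
  ring

/-- `P = c|z|² + (1-|z|²) z f''/f'`. -/
noncomputable def Pm (f : ℂ → ℂ) (c : ℝ) (z : ℂ) : ℂ :=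
  ((c * ‖z‖ ^ 2 : ℝ) : ℂ) + ((1 - ‖z‖ ^ 2 : ℝ) : ℂ) * z * deriv (deriv f) z / deriv f z

lemma Fz_eq {f : ℂ → ℂ} {c : ℝ} (hc : 1 + c ≠ 0) {z : ℂ} (hz : z ≠ 0) (h1 : deriv f z ≠ 0) :
    Fz f c z = deriv f z * Pm f c z / (((1 + c : ℝ) : ℂ) * ((‖z‖ ^ 2 : ℝ) : ℂ)) := by
  have hz' : conj z ≠ 0 := by simpa using hz
  have hc' : ((1 + c : ℝ) : ℂ) ≠ 0 := by exact_mod_cast hc
  have h2 : ((‖z‖ ^ 2 : ℝ) : ℂ) = z * conj z := by
    rw [Complex.mul_conj, Complex.normSq_eq_norm_sq]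
  have h3 : ((1 - ‖z‖ ^ 2 : ℝ) : ℂ) = 1 - z * conj z := by
    rw [← h2]; push_cast; ring
  have h4 : ((c * ‖z‖ ^ 2 : ℝ) : ℂ) = c * (z * conj z) := by
    rw [← h2]; push_cast; ring
  unfold Fz Pm
  rw [h2, h3, h4]
  field_simp

/-- The Jacobian determinant of `Fm`. -/
theorem det_F1 {f : ℂ → ℂ} {c : ℝ} (hc : 1 + c ≠ 0) {z : ℂ} (hz : z ≠ 0) (h1 : deriv f z ≠ 0) :
    (F1 f c z).det = ‖deriv f z‖ ^ 2 * (‖Pm f c z‖ ^ 2 - 1) / ((1 + c) ^ 2 * ‖z‖ ^ 4) := by
  have hn : ‖z‖ ≠ 0 := by simpa using hz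
  rw [F1, det_lin, Fz_eq hc hz h1, Fzb]
  simp only [norm_div, norm_mul, norm_neg, norm_pow, Complex.norm_real, Real.norm_eq_abs,
    Complex.norm_conj, div_pow, mul_pow, sq_abs, abs_norm]
  field_simp



end Crest.Agent.R131.JacF
end

-- ▼ part PVc/R131/Pair
section

/-!
# Row 131: the Morse pairing of saddles with minima (derivative-free)

For a proper continuous function without local maximum on the unit disc, every "saddle" is paired
injectively with a local minimum of lower level which is not the strict global minimum.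
-/

set_option autoImplicit false

open Set Metric Filter Topology

namespace Crest.Agent.R131

/-- `z ↦ z - q` has a continuous logarithm on `S`. -/
def HasLog (S : Set ℂ) (q : ℂ) : Prop :=
  ∃ L : ℂ → ℂ, ContinuousOn L S ∧ ∀ z ∈ S, Complex.exp (L z) = z - q

lemma constOn_of_exp_eq_one {X : Type*} [TopologicalSpace X] {s : Set X} (hs : IsPreconnected s)
    {g : X → ℂ} (hg : ContinuousOn g s) (h1 : ∀ a ∈ s, Complex.exp (g a) = 1) {a b : X}
    (ha : a ∈ s) (hb : b ∈ s) : g a = g b := by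
  refine Complex.isCoveringMap_exp.constOn_of_comp hs hg ?_ ha hb
  intro x hx y hy
  apply Subtype.ext
  simp only [h1 x hx, h1 y hy]

lemma hasLog_of_near {S : Set ℂ} {q q' : ℂ} (h : ∀ z ∈ S, ‖q - q'‖ < ‖z - q‖) (hq : HasLog S q) :
    HasLog S q' := by
  obtain ⟨L, hL, hLe⟩ := hq
  have hne : ∀ z ∈ S, z - q ≠ 0 := by
    intro z hz h0
    have := h z hz
    rw [h0, norm_zero] at this
    exact absurd this (not_lt.2 (norm_nonneg _))
  have hsl : ∀ z ∈ S, 1 + (q - q') / (z - q) ∈ Complex.slitPlane := by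
    intro z hz
    apply Complex.mem_slitPlane_of_norm_lt_one
    rw [norm_div, div_lt_one (norm_pos_iff.2 (hne z hz))]
    exact h z hz
  refine ⟨fun z => L z + Complex.log (1 + (q - q') / (z - q)), ?_, ?_⟩
  · refine hL.add (ContinuousOn.clog ?_ hsl)
    exact continuousOn_const.add (continuousOn_const.div (continuousOn_id.sub continuousOn_const) hne)
  · intro z hz
    rw [Complex.exp_add, hLe z hz, Complex.exp_log (Complex.slitPlane_ne_zero (hsl z hz))]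
    have := hne z hz
    field_simp
    ring

lemma hasLog_far {S : Set ℂ} {q : ℂ} (h : ∀ z ∈ S, ‖z‖ < ‖q‖) : HasLog S q := by
  by_cases hq : q = 0
  · refine ⟨fun _ => 0, continuousOn_const, fun z hz => ?_⟩
    have := h z hz
    rw [hq, norm_zero] at this
    exact absurd this (not_lt.2 (norm_nonneg _))
  have hsl : ∀ z ∈ S, 1 + (-z) / q ∈ Complex.slitPlane := by
    intro z hz
    apply Complex.mem_slitPlane_of_norm_lt_one
    rw [norm_div, norm_neg, div_lt_one (norm_pos_iff.2 hq)]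
    exact h z hz
  refine ⟨fun z => Complex.log (-q) + Complex.log (1 + (-z) / q), ?_, ?_⟩
  · refine continuousOn_const.add (ContinuousOn.clog ?_ hsl)
    exact continuousOn_const.add (continuousOn_id.neg.div_const _)
  · intro z hz
    rw [Complex.exp_add, Complex.exp_log (neg_ne_zero.2 hq),
      Complex.exp_log (Complex.slitPlane_ne_zero (hsl z hz))]
    field_simp
    ring

lemma eventually_hasLog_iff {S : Set ℂ} (hS : IsClosed S) {q : ℂ} (hq : q ∉ S) :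
    ∀ᶠ q' in 𝓝 q, q' ∉ S ∧ (HasLog S q' ↔ HasLog S q) := by
  obtain ⟨ε, hε, hb⟩ := Metric.isOpen_iff.1 hS.isOpen_compl q hq
  have hfar : ∀ z ∈ S, ε ≤ ‖z - q‖ := by
    intro z hz
    by_contra hlt
    exact hb (by rw [mem_ball, dist_eq_norm]; exact not_le.1 hlt) hz
  filter_upwards [Metric.ball_mem_nhds q (half_pos hε)] with q' hq'
  rw [mem_ball, dist_eq_norm] at hq'
  refine ⟨fun h => ?_, fun h => ?_, fun h => ?_⟩
  · have := hfar q' h
    linarith
  · refine hasLog_of_near (fun z hz => ?_) h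
    have h1 := hfar z hz
    have h2 : ‖z - q‖ ≤ ‖z - q'‖ + ‖q' - q‖ := by
      calc ‖z - q‖ = ‖(z - q') + (q' - q)‖ := by ring_nf
        _ ≤ _ := norm_add_le _ _
    linarith
  · refine hasLog_of_near (fun z hz => ?_) h
    have h1 := hfar z hz
    rw [norm_sub_rev]
    linarith

/-- Maximum principle on the set of points without logarithm. -/
lemma exists_ge_of_not_hasLog {V : ℂ → ℝ} (hV : ContinuousOn V (ball 0 1))
    (hnomax : ∀ z ∈ ball (0 : ℂ) 1, ¬ IsLocalMax V z) {S : Set ℂ} (hS : IsCompact S)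
    (hS1 : S ⊆ ball 0 1) {q : ℂ} (hq : q ∉ S) (hn : ¬ HasLog S q) : ∃ z ∈ S, V q ≤ V z := by
  obtain ⟨r, hr1, hr⟩ : ∃ r < (1 : ℝ), S ⊆ closedBall 0 r := by
    obtain ⟨r, hr, hsub⟩ := exists_lt_subset_ball hS.isClosed hS1
    exact ⟨r, hr, hsub.trans ball_subset_closedBall⟩
  set B : Set ℂ := {x | x ∉ S ∧ ¬ HasLog S x} with hB
  have hBr : B ⊆ closedBall 0 r := by
    intro x hx
    by_contra hlt
    apply hx.2
    apply hasLog_far
    intro z hz
    have h1 := hr hz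
    rw [mem_closedBall, dist_zero_right] at h1 hlt
    linarith [not_le.1 hlt]
  have hcl : closure B ⊆ closedBall 0 r := closure_minimal hBr isClosed_closedBall
  have hclc : IsCompact (closure B) :=
    (isCompact_closedBall 0 r).of_isClosed_subset isClosed_closure hcl
  have hcl1 : closure B ⊆ ball 0 1 := hcl.trans (closedBall_subset_ball hr1)
  obtain ⟨z, hz, hmax⟩ := hclc.exists_isMaxOn ⟨q, subset_closure ⟨hq, hn⟩⟩ (hV.mono hcl1)
  by_cases hzS : z ∈ S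
  · exact ⟨z, hzS, hmax (subset_closure ⟨hq, hn⟩)⟩
  exfalso
  have hev := eventually_hasLog_iff hS.isClosed hzS
  have hzn : ¬ HasLog S z := by
    intro hz'
    have hfr := mem_closure_iff_frequently.1 hz
    obtain ⟨y, hy1, hy2⟩ := (hfr.and_eventually hev).exists
    exact hy1.2 (hy2.2.2 hz')
  apply hnomax z (hcl1 hz)
  filter_upwards [hev] with y hy
  exact hmax (subset_closure ⟨hy.1, fun h => hzn (hy.2.1 h)⟩)

/-- The two sides of a segment closed up by a connected set avoiding the midpoint are separated. -/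
lemma not_hasLog_both {K S : Set ℂ} (hKc : IsPreconnected K) (hKS : K ⊆ S) {p v a : ℂ}
    (hv : v ≠ 0) (ha : 0 < a.im) (h1 : p + v ∈ K) (h2 : p - v ∈ K)
    (hseg : ∀ s : ℝ, s ∈ Icc (-1 : ℝ) 1 → p + s * v ∈ S)
    (hsmall : ∀ z ∈ K, ‖a * v‖ < ‖z - p‖) :
    ¬ (HasLog S (p + a * v) ∧ HasLog S (p - a * v)) := by
  rintro ⟨⟨L1, hL1, e1⟩, ⟨L2, hL2, e2⟩⟩
  have hne : ∀ z ∈ K, z - p ≠ 0 := by
    intro z hz h0
    have := hsmall z hz
    rw [h0, norm_zero] at this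
    exact absurd this (not_lt.2 (norm_nonneg _))
  have hs1 : ∀ z ∈ K, 1 + (-(a * v)) / (z - p) ∈ Complex.slitPlane := by
    intro z hz
    apply Complex.mem_slitPlane_of_norm_lt_one
    rw [norm_div, norm_neg, div_lt_one (norm_pos_iff.2 (hne z hz))]
    exact hsmall z hz
  have hs2 : ∀ z ∈ K, 1 + (a * v) / (z - p) ∈ Complex.slitPlane := by
    intro z hz
    apply Complex.mem_slitPlane_of_norm_lt_one
    rw [norm_div, div_lt_one (norm_pos_iff.2 (hne z hz))]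
    exact hsmall z hz
  have hK : (fun z => L1 z - L2 z - (Complex.log (1 + (-(a * v)) / (z - p)) -
        Complex.log (1 + (a * v) / (z - p)))) (p + v) =
      (fun z => L1 z - L2 z - (Complex.log (1 + (-(a * v)) / (z - p)) -
        Complex.log (1 + (a * v) / (z - p)))) (p - v) := by
    refine constOn_of_exp_eq_one (g := fun z => L1 z - L2 z -
      (Complex.log (1 + (-(a * v)) / (z - p)) - Complex.log (1 + (a * v) / (z - p))))
      hKc ?_ ?_ h1 h2
    · refine ((hL1.mono hKS).sub (hL2.mono hKS)).sub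
        ((ContinuousOn.clog ?_ hs1).sub (ContinuousOn.clog ?_ hs2))
      · exact continuousOn_const.add
          (continuousOn_const.div (continuousOn_id.sub continuousOn_const) hne)
      · exact continuousOn_const.add
          (continuousOn_const.div (continuousOn_id.sub continuousOn_const) hne)
    · intro z hz
      have n1 := Complex.slitPlane_ne_zero (hs1 z hz)
      have n2 := Complex.slitPlane_ne_zero (hs2 z hz)
      have n3 := hne z hz
      have m1 : z - (p + a * v) = (z - p) * (1 + (-(a * v)) / (z - p)) := by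
        field_simp
        ring
      have m2 : z - (p - a * v) = (z - p) * (1 + (a * v) / (z - p)) := by
        field_simp
        ring
      simp only [Complex.exp_sub]
      rw [e1 z (hKS hz), e2 z (hKS hz), Complex.exp_log n1, Complex.exp_log n2, m1, m2,
        mul_div_mul_left _ _ n3, div_self (div_ne_zero n1 n2)]
  have ht1 : ∀ s : ℝ, (s : ℂ) - a ∈ Complex.slitPlane := by
    intro s
    right
    simp only [Complex.sub_im, Complex.ofReal_im]
    linarith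
  have ht2 : ∀ s : ℝ, (s : ℂ) + a ∈ Complex.slitPlane := by
    intro s
    right
    simp only [Complex.add_im, Complex.ofReal_im]
    linarith
  have hc : Continuous fun s : ℝ => p + (s : ℂ) * v := by fun_prop
  have hI : (fun s : ℝ => L1 (p + s * v) - L2 (p + s * v) -
        (Complex.log ((s : ℂ) - a) - Complex.log ((s : ℂ) + a))) 1 =
      (fun s : ℝ => L1 (p + s * v) - L2 (p + s * v) -
        (Complex.log ((s : ℂ) - a) - Complex.log ((s : ℂ) + a))) (-1) := by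
    refine constOn_of_exp_eq_one (g := fun s : ℝ => L1 (p + s * v) - L2 (p + s * v) -
        (Complex.log ((s : ℂ) - a) - Complex.log ((s : ℂ) + a)))
      (isPreconnected_Icc (a := (-1 : ℝ)) (b := 1)) ?_ ?_
      (a := 1) (b := -1) (by norm_num) (by norm_num)
    · refine ((hL1.comp hc.continuousOn hseg).sub (hL2.comp hc.continuousOn hseg)).sub
        ((ContinuousOn.clog ?_ fun s _ => ht1 s).sub (ContinuousOn.clog ?_ fun s _ => ht2 s))
      · fun_prop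
      · fun_prop
    · intro s hs
      have n1 := Complex.slitPlane_ne_zero (ht1 s)
      have n2 := Complex.slitPlane_ne_zero (ht2 s)
      have m1 : p + s * v - (p + a * v) = v * (s - a) := by ring
      have m2 : p + s * v - (p - a * v) = v * (s + a) := by ring
      simp only [Complex.exp_sub]
      rw [e1 _ (hseg s hs), e2 _ (hseg s hs), Complex.exp_log n1, Complex.exp_log n2, m1, m2]
      field_simp
  have a1 : 1 + (-(a * v)) / (p + v - p) = 1 - a := by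
    rw [add_sub_cancel_left]; field_simp; ring
  have a2 : 1 + (a * v) / (p + v - p) = 1 + a := by
    rw [add_sub_cancel_left]; field_simp
  have a3 : 1 + (-(a * v)) / (p - v - p) = 1 + a := by
    rw [sub_sub_cancel_left]; field_simp
  have a4 : 1 + (a * v) / (p - v - p) = 1 - a := by
    rw [sub_sub_cancel_left]; field_simp; ring
  simp only [a1, a2, a3, a4] at hK
  have b2 : p + ((-1 : ℝ) : ℂ) * v = p - v := by simp [sub_eq_add_neg]
  have b3 : ((-1 : ℝ) : ℂ) - a = -(1 + a) := by push_cast; ring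
  have b4 : ((-1 : ℝ) : ℂ) + a = -(1 - a) := by push_cast; ring
  simp only [b2, b3, b4, Complex.ofReal_one, one_mul] at hI
  have key : Complex.log (1 - a) - Complex.log (1 + a) =
      Complex.log (-(1 - a)) - Complex.log (-(1 + a)) := by
    linear_combination hI - hK
  have him := congrArg Complex.im key
  simp only [Complex.sub_im, Complex.log_im] at him
  rw [Complex.arg_neg_eq_arg_add_pi_of_im_neg (x := 1 - a) (by simp; linarith),
    Complex.arg_neg_eq_arg_sub_pi_of_im_pos (x := 1 + a) (by simpa using ha)] at him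
  linarith [Real.pi_pos]

/-- The two descending sides of a saddle are not joined below its level away from the saddle. -/
lemma not_joinedIn_sides {V : ℂ → ℝ} (hV : ContinuousOn V (ball 0 1))
    (hnomax : ∀ z ∈ ball (0 : ℂ) 1, ¬ IsLocalMax V z) {p v w : ℂ}
    (hseg : ∀ t : ℝ, |t| ≤ 1 → p + t * v ∈ ball (0 : ℂ) 1 ∧ V (p + t * v) ≤ V p)
    (hvw : (w / v).im ≠ 0) (hup : ∀ᶠ t : ℝ in 𝓝[≠] 0, V p < V (p + t * w))
    {X : Set ℂ} (hX : ∀ z ∈ X, z ∈ ball (0 : ℂ) 1 ∧ V z ≤ V p) (hpX : p ∉ X) :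
    ¬ JoinedIn X (p + v) (p - v) := by
  rintro ⟨γ, hγ⟩
  have hv : v ≠ 0 := by
    intro h
    apply hvw
    simp [h]
  set K : Set ℂ := range γ with hKdef
  have hKcomp : IsCompact K := isCompact_range γ.continuous
  have hKc : IsPreconnected K := isPreconnected_range γ.continuous
  have hKX : K ⊆ X := by
    rintro _ ⟨t, rfl⟩
    exact hγ t
  have hc : Continuous fun s : ℝ => p + (s : ℂ) * v := by fun_prop
  set S : Set ℂ := K ∪ (fun s : ℝ => p + (s : ℂ) * v) '' Icc (-1) 1 with hSdef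
  have hS : IsCompact S := hKcomp.union (isCompact_Icc.image hc)
  have hSV : ∀ z ∈ S, z ∈ ball (0 : ℂ) 1 ∧ V z ≤ V p := by
    rintro z (hz | ⟨s, hs, rfl⟩)
    · exact hX z (hKX hz)
    · exact hseg s (abs_le.2 hs)
  have hpK : p ∉ K := fun h => hpX (hKX h)
  obtain ⟨ε, hε, hb⟩ := Metric.isOpen_iff.1 hKcomp.isClosed.isOpen_compl p hpK
  have hfar : ∀ z ∈ K, ε ≤ ‖z - p‖ := by
    intro z hz
    by_contra hlt
    exact hb (by rw [mem_ball, dist_eq_norm]; exact not_le.1 hlt) hz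
  -- a small `t` of the right sign
  have hsm : ∀ᶠ t : ℝ in 𝓝 0, ‖(t : ℂ) * w‖ < ε := by
    have hc2 : Continuous fun t : ℝ => ‖(t : ℂ) * w‖ := by fun_prop
    have := hc2.tendsto 0
    simp only [Complex.ofReal_zero, zero_mul, norm_zero] at this
    exact this.eventually (gt_mem_nhds hε)
  obtain ⟨η, hη, hηP⟩ : ∃ η > 0, ∀ t : ℝ, |t| < η → t ≠ 0 →
      V p < V (p + t * w) ∧ ‖(t : ℂ) * w‖ < ε := by
    have h := hup.and (hsm.filter_mono nhdsWithin_le_nhds)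
    rw [eventually_nhdsWithin_iff, Metric.eventually_nhds_iff] at h
    obtain ⟨η, hη, h⟩ := h
    exact ⟨η, hη, fun t ht ht0 => h (by simpa using ht) ht0⟩
  obtain ⟨t, ht, ht0, htim⟩ : ∃ t : ℝ, |t| < η ∧ t ≠ 0 ∧ 0 < ((t : ℂ) * (w / v)).im := by
    rcases lt_or_gt_of_ne hvw with h | h
    · refine ⟨-(η / 2), by rw [abs_neg, abs_of_pos (half_pos hη)]; linarith,
        by linarith [half_pos hη], ?_⟩
      rw [Complex.im_ofReal_mul]
      nlinarith
    · refine ⟨η / 2, by rw [abs_of_pos (half_pos hη)]; linarith, by linarith [half_pos hη], ?_⟩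
      rw [Complex.im_ofReal_mul]
      positivity
  have hav : (t : ℂ) * (w / v) * v = t * w := by field_simp
  have hP1 := hηP t ht ht0
  have hP2 := hηP (-t) (by rwa [abs_neg]) (neg_ne_zero.2 ht0)
  have hneg : p + ((-t : ℝ) : ℂ) * w = p - t * w := by push_cast; ring
  rw [hneg] at hP2
  have hnb := not_hasLog_both (K := K) (S := S) hKc subset_union_left (p := p) hv htim
    ⟨0, γ.source⟩ ⟨1, γ.target⟩ (fun s hs => Or.inr ⟨s, hs, rfl⟩)
    (fun z hz => by rw [hav]; exact hP1.2.trans_le (hfar z hz))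
  rw [hav] at hnb
  have hfin : ∀ q, V p < V q → HasLog S q := by
    intro q hq
    by_contra hn
    obtain ⟨z, hz, hle⟩ := exists_ge_of_not_hasLog hV hnomax hS (fun z hz => (hSV z hz).1)
      (q := q) (fun h => absurd (hSV q h).2 (not_le.2 hq)) hn
    linarith [(hSV z hz).2]
  exact hnb ⟨hfin _ hP1.1, hfin _ hP2.1⟩

/-- The elder order: by level, ties broken by a fixed well order. -/
def Eld (V : ℂ → ℝ) (x y : ℂ) : Prop := V x < V y ∨ (V x = V y ∧ WellOrderingRel x y)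

lemma Eld.le {V : ℂ → ℝ} {x y : ℂ} (h : Eld V x y) : V x ≤ V y := by
  rcases h with h | h
  · exact h.le
  · exact h.1.le

lemma Eld.asymm {V : ℂ → ℝ} {x y : ℂ} (h : Eld V x y) : ¬ Eld V y x := by
  rintro (h' | h')
  · exact absurd h.le (not_le.2 h')
  · rcases h with h | h
    · exact absurd h'.1.le (not_le.2 h)
    · exact _root_.asymm h.2 h'.2

lemma Eld.irrefl {V : ℂ → ℝ} (x : ℂ) : ¬ Eld V x x := fun h => h.asymm h

lemma Eld.trichot (V : ℂ → ℝ) (x y : ℂ) : Eld V x y ∨ x = y ∨ Eld V y x := by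
  rcases lt_trichotomy (V x) (V y) with h | h | h
  · exact Or.inl (Or.inl h)
  · rcases trichotomous_of (WellOrderingRel : ℂ → ℂ → Prop) x y with h' | h' | h'
    · exact Or.inl (Or.inr ⟨h, h'⟩)
    · exact Or.inr (Or.inl h')
    · exact Or.inr (Or.inr (Or.inr ⟨h.symm, h'⟩))
  · exact Or.inr (Or.inr (Or.inl h))

/-- The eldest point of a path component of a set between `{V < c}` and `{V ≤ c}`. -/
lemma exists_eldest {V : ℂ → ℝ} (hV : ContinuousOn V (ball 0 1))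
    (hprop : ∀ s : ℝ, ∃ r < (1 : ℝ), ∀ z ∈ ball (0 : ℂ) 1, V z ≤ s → ‖z‖ ≤ r)
    {X : Set ℂ} {c : ℝ} (hX : ∀ z ∈ X, z ∈ ball (0 : ℂ) 1 ∧ V z ≤ c)
    (hX' : ∀ z ∈ ball (0 : ℂ) 1, V z < c → z ∈ X) {x : ℂ} (hx : x ∈ ball (0 : ℂ) 1)
    (hxc : V x < c) :
    ∃ m, JoinedIn X x m ∧ IsLocalMin V m ∧ ∀ y, JoinedIn X x y → m = y ∨ Eld V m y := by
  obtain ⟨r, hr1, hr⟩ := hprop c
  set P : Set ℂ := {y | JoinedIn X x y} with hP
  have hxP : x ∈ P := JoinedIn.refl (hX' x hx hxc)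
  have hPr : P ⊆ closedBall 0 r := by
    intro y hy
    have := hX y (JoinedIn.target_mem hy)
    rw [mem_closedBall, dist_zero_right]
    exact hr y this.1 this.2
  have hcl : closure P ⊆ closedBall 0 r := closure_minimal hPr isClosed_closedBall
  have hclc : IsCompact (closure P) :=
    (isCompact_closedBall 0 r).of_isClosed_subset isClosed_closure hcl
  have hcl1 : closure P ⊆ ball 0 1 := hcl.trans (closedBall_subset_ball hr1)
  set M : Set ℂ := {m | m ∈ closure P ∧ IsMinOn V (closure P) m} with hM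
  have hMne : M.Nonempty := by
    obtain ⟨z, hz, hmin⟩ := hclc.exists_isMinOn ⟨x, subset_closure hxP⟩ (hV.mono hcl1)
    exact ⟨z, hz, hmin⟩
  have hwf : WellFounded (WellOrderingRel : ℂ → ℂ → Prop) := IsWellFounded.wf
  obtain ⟨m, ⟨hm, hmin⟩, hleast⟩ := hwf.has_min M hMne
  have hm1 : m ∈ ball (0 : ℂ) 1 := hcl1 hm
  have hmc : V m < c := lt_of_le_of_lt (hmin (subset_closure hxP)) hxc
  have hev : ∀ᶠ y in 𝓝 m, y ∈ X := by
    have h1 : ∀ᶠ y in 𝓝 m, V y < c :=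
      (hV.continuousAt (isOpen_ball.mem_nhds hm1)).eventually (gt_mem_nhds hmc)
    filter_upwards [h1, isOpen_ball.mem_nhds hm1] with y hy hy1
    exact hX' y hy1 hy
  obtain ⟨ε, hε, hball⟩ := Metric.eventually_nhds_iff_ball.1 hev
  obtain ⟨y0, hy0P, hy0⟩ := Metric.mem_closure_iff.1 hm ε hε
  have hy0b : y0 ∈ ball m ε := by rw [mem_ball, dist_comm]; exact hy0
  have hbP : ∀ y ∈ ball m ε, y ∈ P := by
    intro y hy
    exact JoinedIn.trans hy0P
      (JoinedIn.of_segment_subset (((convex_ball m ε).segment_subset hy0b hy).trans hball))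
  refine ⟨m, hbP m (mem_ball_self hε), ?_, fun y hy => ?_⟩
  · filter_upwards [Metric.ball_mem_nhds m hε] with y hy
    exact hmin (subset_closure (hbP y hy))
  · have hle : V m ≤ V y := hmin (subset_closure hy)
    rcases hle.lt_or_eq with h | h
    · exact Or.inr (Or.inl h)
    · have hyM : y ∈ M := ⟨subset_closure hy, fun z hz => by
        have : V m ≤ V z := hmin hz
        simpa [← h] using this⟩
      rcases trichotomous_of (WellOrderingRel : ℂ → ℂ → Prop) m y with h' | h' | h'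
      · exact Or.inr (Or.inr ⟨h, h'⟩)
      · exact Or.inl h'
      · exact absurd h' (hleast y hyM)

/-- **Morse pairing.** -/
theorem pairing (V : ℂ → ℝ) (hV : ContinuousOn V (ball 0 1))
    (hprop : ∀ s : ℝ, ∃ r < (1 : ℝ), ∀ z ∈ ball (0 : ℂ) 1, V z ≤ s → ‖z‖ ≤ r)
    (hnomax : ∀ z ∈ ball (0 : ℂ) 1, ¬ IsLocalMax V z) (Sad : Set ℂ) (v w : ℂ → ℂ)
    (hseg : ∀ p ∈ Sad, ∀ t : ℝ, |t| ≤ 1 →
      p + t * v p ∈ ball (0 : ℂ) 1 ∧ (t ≠ 0 → V (p + t * v p) < V p))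
    (hvw : ∀ p ∈ Sad, (w p / v p).im ≠ 0)
    (hup : ∀ p ∈ Sad, ∀ᶠ t : ℝ in 𝓝[≠] 0, V p < V (p + t * w p)) :
    ∃ φ : ℂ → ℂ, InjOn φ Sad ∧ ∀ p ∈ Sad, φ p ∈ ball (0 : ℂ) 1 ∧ IsLocalMin V (φ p) ∧
      V (φ p) ≤ max (V (p + v p)) (V (p - v p)) ∧
      JoinedIn {z | z ∈ ball (0 : ℂ) 1 ∧ V z ≤ V p} (φ p) p ∧
      ∃ m ∈ ball (0 : ℂ) 1, m ≠ φ p ∧ V m ≤ V (φ p) := by
  classical
  set X : ℂ → Set ℂ := fun p => {z | z ∈ ball (0 : ℂ) 1 ∧ Eld V z p} with hXdef
  have hX : ∀ p, ∀ z ∈ X p, z ∈ ball (0 : ℂ) 1 ∧ V z ≤ V p := fun p z hz => ⟨hz.1, hz.2.le⟩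
  have hX' : ∀ p, ∀ z ∈ ball (0 : ℂ) 1, V z < V p → z ∈ X p := fun p z hz h => ⟨hz, Or.inl h⟩
  have hpX : ∀ p, p ∉ X p := fun p h => Eld.irrefl p h.2
  have hplus : ∀ p ∈ Sad, p + v p ∈ ball (0 : ℂ) 1 ∧ V (p + v p) < V p := by
    intro p hp
    have := hseg p hp 1 (by norm_num)
    simp only [Complex.ofReal_one, one_mul] at this
    exact ⟨this.1, this.2 one_ne_zero⟩
  have hminus : ∀ p ∈ Sad, p - v p ∈ ball (0 : ℂ) 1 ∧ V (p - v p) < V p := by
    intro p hp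
    have := hseg p hp (-1) (by norm_num)
    have e : p + ((-1 : ℝ) : ℂ) * v p = p - v p := by push_cast; ring
    rw [e] at this
    exact ⟨this.1, this.2 (by norm_num)⟩
  have hseg' : ∀ p ∈ Sad, ∀ t : ℝ, |t| ≤ 1 →
      p + t * v p ∈ ball (0 : ℂ) 1 ∧ V (p + t * v p) ≤ V p := by
    intro p hp t ht
    refine ⟨(hseg p hp t ht).1, ?_⟩
    by_cases h0 : t = 0
    · simp [h0]
    · exact ((hseg p hp t ht).2 h0).le
  -- every set containing `X p` and `p` joins both sides with `p`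
  have hside : ∀ p ∈ Sad, ∀ Y : Set ℂ, X p ⊆ Y → p ∈ Y →
      JoinedIn Y (p + v p) p ∧ JoinedIn Y (p - v p) p := by
    intro p hp Y hY hpY
    have hmem : ∀ t : ℝ, |t| ≤ 1 → p + t * v p ∈ Y := by
      intro t ht
      by_cases h0 : t = 0
      · simpa [h0] using hpY
      · exact hY (hX' p _ (hseg p hp t ht).1 ((hseg p hp t ht).2 h0))
    constructor
    · apply JoinedIn.of_segment_subset
      rintro z ⟨a, b, ha, hb, hab, rfl⟩
      have : a • (p + v p) + b • p = p + (a : ℂ) * v p := by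
        have hb' : b = 1 - a := by linarith
        rw [hb', Complex.real_smul, Complex.real_smul]; push_cast; ring
      rw [this]
      exact hmem a (by rw [abs_of_nonneg ha]; linarith)
    · apply JoinedIn.of_segment_subset
      rintro z ⟨a, b, ha, hb, hab, rfl⟩
      have : a • (p - v p) + b • p = p + ((-a : ℝ) : ℂ) * v p := by
        have hb' : b = 1 - a := by linarith
        rw [hb', Complex.real_smul, Complex.real_smul]; push_cast; ring
      rw [this]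
      exact hmem (-a) (by rw [abs_neg, abs_of_nonneg ha]; linarith)
  -- the data attached with a saddle
  have hdata : ∀ p ∈ Sad, ∃ m m' x x' : ℂ,
      ((x = p + v p ∧ x' = p - v p) ∨ (x = p - v p ∧ x' = p + v p)) ∧
      JoinedIn (X p) x m ∧ JoinedIn (X p) x' m' ∧ IsLocalMin V m ∧ Eld V m' m ∧
      ∀ y, JoinedIn (X p) x y → m = y ∨ Eld V m y := by
    intro p hp
    obtain ⟨m1, j1, l1, e1⟩ := exists_eldest hV hprop (hX p) (hX' p) (hplus p hp).1 (hplus p hp).2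
    obtain ⟨m2, j2, l2, e2⟩ :=
      exists_eldest hV hprop (hX p) (hX' p) (hminus p hp).1 (hminus p hp).2
    rcases Eld.trichot V m1 m2 with h | h | h
    · exact ⟨m2, m1, _, _, Or.inr ⟨rfl, rfl⟩, j2, j1, l2, h, e2⟩
    · exfalso
      subst h
      exact not_joinedIn_sides hV hnomax (hseg' p hp) (hvw p hp) (hup p hp) (hX p) (hpX p)
        (j1.trans j2.symm)
    · exact ⟨m1, m2, _, _, Or.inl ⟨rfl, rfl⟩, j1, j2, l1, h, e1⟩
  choose! φ φ' x x' hxx j j' hloc held hmin using hdata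
  have hjoin : ∀ p ∈ Sad, ∀ Y : Set ℂ, X p ⊆ Y → p ∈ Y →
      JoinedIn Y (φ p) p ∧ JoinedIn Y (φ' p) p := by
    intro p hp Y hY hpY
    obtain ⟨s1, s2⟩ := hside p hp Y hY hpY
    have k1 := (j p hp).mono hY
    have k2 := (j' p hp).mono hY
    rcases hxx p hp with ⟨h1, h2⟩ | ⟨h1, h2⟩
    · rw [h1] at k1; rw [h2] at k2
      exact ⟨k1.symm.trans s1, k2.symm.trans s2⟩
    · rw [h1] at k1; rw [h2] at k2
      exact ⟨k1.symm.trans s2, k2.symm.trans s1⟩
  have hpball : ∀ p ∈ Sad, p ∈ ball (0 : ℂ) 1 := by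
    intro p hp
    simpa using (hseg p hp 0 (by norm_num)).1
  have hinj : ∀ p ∈ Sad, ∀ q ∈ Sad, Eld V p q → φ p ≠ φ q := by
    intro p hp q hq hpq he
    have hsub : X p ⊆ X q := by
      rintro z ⟨hz, hz'⟩
      refine ⟨hz, ?_⟩
      rcases hz' with h | h
      · exact Or.inl (h.trans_le hpq.le)
      · rcases hpq with h' | h'
        · exact Or.inl (h.1 ▸ h')
        · exact Or.inr ⟨h.1.trans h'.1, _root_.trans h.2 h'.2⟩
    obtain ⟨k1, k2⟩ := hjoin p hp (X q) hsub ⟨hpball p hp, hpq⟩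
    have k3 : JoinedIn (X q) (x q) (φ' p) := by
      refine (j q hq).trans ?_
      rw [← he]
      exact k1.trans k2.symm
    have hE := held p hp
    rcases hmin q hq _ k3 with h | h
    · rw [← h, he] at hE
      exact Eld.irrefl _ hE
    · rw [← he] at h
      exact hE.asymm h
  refine ⟨φ, ?_, fun p hp => ⟨?_, hloc p hp, ?_, ?_, φ' p, ?_, ?_, (held p hp).le⟩⟩
  · intro p hp q hq he
    rcases Eld.trichot V p q with h | h | h
    · exact absurd he (hinj p hp q hq h)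
    · exact h
    · exact absurd he.symm (hinj q hq p hp h)
  · exact (hX p _ (j p hp).target_mem).1
  · have hle : V (φ p) ≤ V (x p) := by
      rcases hmin p hp (x p) (JoinedIn.refl (j p hp).source_mem) with h | h
      · rw [h]
      · exact h.le
    rcases hxx p hp with ⟨h1, -⟩ | ⟨h1, -⟩
    · rw [h1] at hle; exact hle.trans (le_max_left _ _)
    · rw [h1] at hle; exact hle.trans (le_max_right _ _)
  · exact (hjoin p hp _ (fun z hz => hX p z hz) ⟨hpball p hp, le_rfl⟩).1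
  · exact (hX p _ (j' p hp).target_mem).1
  · intro h
    have hE := held p hp
    rw [h] at hE
    exact Eld.irrefl _ hE

end Crest.Agent.R131
end

-- ▼ part PVc/R131/Morse
section

/-! # Row 131: the Morse pairing (elder rule) for a function on the disc without local maxima -/

set_option autoImplicit false

namespace Crest.Agent.R131

open Set Metric Filter Topology Complex
open scoped ComplexConjugate

/-- `p` is a saddle, `v` a descending and `w` an ascending direction -/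
def IsSad (G : ℂ → ℝ) (p v w : ℂ) : Prop :=
  (conj v * w).im ≠ 0 ∧ ∀ᶠ s : ℝ in 𝓝[≠] 0, G (p + s * v) < G p ∧ G p < G (p + s * w)

theorem cc_nhds {S : Set ℂ} {x z : ℂ} (hz : z ∈ closure (connectedComponentIn S x))
    (hS : S ∈ 𝓝 z) : connectedComponentIn S x ∈ 𝓝 z := by
  obtain ⟨r, hr, hb⟩ := Metric.mem_nhds_iff.1 hS
  obtain ⟨y, hy, hy'⟩ := mem_closure_iff_nhds.1 hz _ (ball_mem_nhds z hr)
  rw [connectedComponentIn_eq hy']
  exact mem_of_superset (ball_mem_nhds z hr)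
    ((convex_ball z r).isPreconnected.subset_connectedComponentIn hy hb)

/-- `z - q` has a continuous logarithm on `K` -/
def HL (K : Set ℂ) (q : ℂ) : Prop := ∃ L : ℂ → ℂ, ContinuousOn L K ∧ ∀ z ∈ K, exp (L z) = z - q

theorem HL.near {K : Set ℂ} {q q' : ℂ} (h : HL K q) (hq : ∀ z ∈ K, ‖q - q'‖ < ‖z - q‖) :
    HL K q' := by
  obtain ⟨L, hL, e⟩ := h
  have n0 : ∀ z ∈ K, z - q ≠ 0 := fun z hz => norm_pos_iff.1 ((norm_nonneg _).trans_lt (hq z hz))
  have sl : ∀ z ∈ K, 1 + (q - q') / (z - q) ∈ slitPlane := fun z hz =>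
    mem_slitPlane_of_norm_lt_one (by
      rw [norm_div, div_lt_one (norm_pos_iff.2 (n0 z hz))]; exact hq z hz)
  refine ⟨fun z => L z + log (1 + (q - q') / (z - q)), hL.add (ContinuousOn.clog
    (continuousOn_const.add (continuousOn_const.div (by fun_prop) n0)) sl), fun z hz => ?_⟩
  rw [exp_add, e z hz, exp_log (slitPlane_ne_zero (sl z hz))]
  field_simp [n0 z hz]
  ring

theorem HL_out {K : Set ℂ} (hK : K ⊆ ball 0 1) {q : ℂ} (hq : 1 ≤ ‖q‖) : HL K q := by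
  have q0 : q ≠ 0 := norm_pos_iff.1 (one_pos.trans_le hq)
  have sl : ∀ z ∈ K, 1 + -z / q ∈ slitPlane := fun z hz =>
    mem_slitPlane_of_norm_lt_one (by
      rw [norm_div, norm_neg, div_lt_one (one_pos.trans_le hq)]
      exact (mem_ball_zero_iff.1 (hK hz)).trans_le hq)
  refine ⟨fun z => log (-q) + log (1 + -z / q), continuousOn_const.add (ContinuousOn.clog
    (by fun_prop) sl), fun z hz => ?_⟩
  rw [exp_add, exp_log (neg_ne_zero.2 q0), exp_log (slitPlane_ne_zero (sl z hz))]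
  field_simp
  ring

theorem HL.conn {K S : Set ℂ} (hK : IsClosed K) (hS : IsPreconnected S) (hSK : S ⊆ Kᶜ) {q q' : ℂ}
    (hq : q ∈ S) (hq' : q' ∈ S) (h : HL K q) : HL K q' := by
  refine hS.induction₂' (fun q q' => HL K q → HL K q') (fun x hx => ?_)
    (fun _ _ _ _ _ _ h1 h2 h3 => h2 (h1 h3)) hq hq' h
  obtain ⟨r, hr, hb⟩ := Metric.isOpen_iff.1 hK.isOpen_compl x (hSK hx)
  have far : ∀ z ∈ K, r ≤ ‖z - x‖ := fun z hz =>
    not_lt.1 fun h => hb (mem_ball_iff_norm.2 h) hz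
  filter_upwards [mem_nhdsWithin_of_mem_nhds (ball_mem_nhds x (half_pos hr))] with y hy
  have hy' : ‖y - x‖ < r / 2 := mem_ball_iff_norm.1 hy
  refine ⟨fun h => h.near fun z hz => ?_, fun h => h.near fun z hz => ?_⟩
  · rw [norm_sub_rev]; linarith [far z hz]
  · have := norm_sub_le_norm_sub_add_norm_sub z y x
    linarith [far z hz]

/-- the jump of the argument -/
theorem cross {K C : Set ℂ} {p v u : ℂ} (hu : (conj v * u).im ≠ 0) (hp : p ∈ K)
    (hK : ∀ s : ℝ, s ≠ 0 → |s| ≤ 1 → p + s * u ∉ K) (h1 : HL K (p + u)) (h2 : HL K (p - u))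
    (hC : IsPreconnected C) (hCK : C ⊆ K) (hpC : p ∉ C) (hv : ∀ᶠ s : ℝ in 𝓝[≠] 0, p + s * v ∈ C) :
    False := by
  obtain ⟨L₁, c1, e1⟩ := h1
  obtain ⟨L₂, c2, e2⟩ := h2
  set h : ℂ → ℂ := fun z => (z - (p + u)) / (z - (p - u)) with hh
  have u0 : u ≠ 0 := by rintro rfl; simp at hu
  have n2 : ∀ z ∈ K, z - (p - u) ≠ 0 := fun z hz => by rw [← e2 z hz]; exact exp_ne_zero _
  have eh : ∀ z ∈ K, exp (L₁ z - L₂ z) = h z := fun z hz => by rw [exp_sub, e1 z hz, e2 z hz]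
  have sl : ∀ z ∈ C, h z ∈ slitPlane := by
    intro z hz
    by_contra hn
    rw [mem_slitPlane_iff, not_or, not_lt, not_not] at hn
    set r := -(h z).re with hr
    have r0 : 0 ≤ r := by linarith [hn.1]
    have e : h z = -(r : ℂ) := Complex.ext (by simp [hr]) (by simp [hn.2])
    have r1 : (1 + r : ℂ) ≠ 0 := by exact_mod_cast (by linarith : (1 + r : ℝ) ≠ 0)
    have e' : z = p + ((1 - r) / (1 + r) : ℝ) * u := by
      rw [hh, div_eq_iff (n2 z (hCK hz))] at e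
      push_cast
      field_simp
      linear_combination e
    refine hK ((1 - r) / (1 + r)) (fun h0 => hpC ?_) ?_ (e' ▸ hCK hz)
    · rw [h0] at e'
      simpa [e'] using hz
    · rw [abs_div, div_le_one (abs_pos.2 (by linarith)), abs_of_pos (by linarith : 0 < 1 + r),
        abs_le]
      constructor <;> linarith
  set f : ℂ → ℝ := fun z => (L₁ z - L₂ z).im - arg (h z) with hf
  have ch : ContinuousOn h K := ContinuousOn.div (by fun_prop) (by fun_prop) n2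
  have cL : ContinuousOn (fun z => (L₁ z - L₂ z).im) K := continuous_im.comp_continuousOn (c1.sub c2)
  have cf : ContinuousOn f C := (cL.mono hCK).sub fun z hz =>
    (continuousAt_arg (sl z hz)).comp_continuousWithinAt ((ch.mono hCK) z hz)
  have sub : (f '' C).Subsingleton := by
    refine (countable_range fun n : ℤ => (n : ℝ) * (2 * Real.pi)).isTotallyDisconnected _ ?_
      (hC.image f cf)
    rintro _ ⟨z, hz, rfl⟩
    obtain ⟨n, hn⟩ := exp_eq_exp_iff_exists_int.1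
      ((eh z (hCK hz)).trans (exp_log (slitPlane_ne_zero (sl z hz))).symm)
    exact ⟨n, by simp only [hf]; rw [hn]; simp [log_im]⟩
  obtain ⟨s₀, hs₀⟩ := hv.exists
  have lim : ∀ (x : ℂ) (T : Set ℂ) (a : ℝ), (∀ᶠ s : ℝ in 𝓝[>] 0, p + s * x ∈ C) →
      Tendsto arg (𝓝[T] (-1)) (𝓝 a) → (∀ s : ℝ, 0 < s → p + s * x ∈ C → h (p + s * x) ∈ T) →
      (L₁ p - L₂ p).im - a = f (p + s₀ * v) := by
    intro x T a hx ha hT
    have t0 : Tendsto (fun s : ℝ => p + s * x) (𝓝[>] 0) (𝓝[K] p) := by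
      refine tendsto_nhdsWithin_iff.2 ⟨?_, hx.mono fun s hs => hCK hs⟩
      have : Continuous fun s : ℝ => p + s * x := by fun_prop
      simpa using (this.tendsto 0).mono_left nhdsWithin_le_nhds
    have hp1 : h p = -1 := by
      simp only [hh]
      rw [sub_add_cancel_left, sub_sub_cancel, neg_div, div_self u0]
    have t1 : Tendsto (fun s : ℝ => h (p + s * x)) (𝓝[>] 0) (𝓝[T] (-1)) := by
      refine tendsto_nhdsWithin_iff.2 ⟨hp1 ▸ (ch p hp).tendsto.comp t0, ?_⟩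
      filter_upwards [hx, self_mem_nhdsWithin] with s h1 h2 using hT s h2 h1
    refine tendsto_nhds_unique (((cL p hp).tendsto.comp t0).sub (ha.comp t1))
      (tendsto_const_nhds.congr' (hx.mono fun s hs => ?_))
    exact sub (mem_image_of_mem f hs₀) (mem_image_of_mem f hs)
  have im : ∀ (x : ℂ) (s : ℝ), (h (p + s * x)).im =
      -(2 * s * (conj x * u).im) / normSq (p + s * x - (p - u)) := by
    intro x s
    simp only [hh, div_im, sub_im, add_im, mul_im, sub_re, add_re, mul_re, ofReal_re, ofReal_im,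
      conj_re, conj_im]
    ring
  have pos : ∀ x : ℂ, (∀ᶠ s : ℝ in 𝓝[>] 0, p + s * x ∈ C) → 0 < (conj x * u).im →
      (L₁ p - L₂ p).im - -Real.pi = f (p + s₀ * v) := fun x hx h0 =>
    lim x _ _ hx (tendsto_arg_nhdsWithin_im_neg_of_re_neg_of_im_zero (by simp) (by simp))
      fun s hs hm => by
        change (h (p + s * x)).im < 0
        rw [im]
        exact div_neg_of_neg_of_pos (by nlinarith) (normSq_pos.2 (n2 _ (hCK hm)))
  have neg : ∀ x : ℂ, (∀ᶠ s : ℝ in 𝓝[>] 0, p + s * x ∈ C) → (conj x * u).im < 0 →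
      (L₁ p - L₂ p).im - Real.pi = f (p + s₀ * v) := fun x hx h0 =>
    lim x _ _ hx (tendsto_arg_nhdsWithin_im_nonneg_of_re_neg_of_im_zero (by simp) (by simp))
      fun s hs _ => by
        change 0 ≤ (h (p + s * x)).im
        rw [im]
        exact div_nonneg (by nlinarith) (normSq_nonneg _)
  have v1 : ∀ᶠ s : ℝ in 𝓝[>] 0, p + s * v ∈ C := hv.filter_mono (nhdsGT_le_nhdsNE 0)
  have v2 : ∀ᶠ s : ℝ in 𝓝[>] 0, p + s * -v ∈ C := by
    have t : Tendsto (fun s : ℝ => -s) (𝓝[>] 0) (𝓝[≠] 0) := by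
      refine tendsto_nhdsWithin_iff.2 ⟨?_, ?_⟩
      · simpa using (continuous_neg.tendsto (0 : ℝ)).mono_left nhdsWithin_le_nhds
      · filter_upwards [self_mem_nhdsWithin] with s hs using neg_ne_zero.2 (ne_of_gt hs)
    simpa using t.eventually hv
  have e : (conj (-v) * u).im = -(conj v * u).im := by rw [map_neg, neg_mul, neg_im]
  rcases lt_or_gt_of_ne hu with h0 | h0
  · linarith [neg v v1 h0, pos (-v) v2 (by linarith), Real.pi_pos]
  · linarith [pos v v1 h0, neg (-v) v2 (by linarith), Real.pi_pos]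

/-- the hypotheses on `G` -/
structure Good (G : ℂ → ℝ) : Prop where
  cont : ContinuousOn G (ball 0 1)
  cpt : ∀ l, IsCompact {z ∈ ball (0 : ℂ) 1 | G z ≤ l}
  nonneg : ∀ z ∈ ball (0 : ℂ) 1, 0 ≤ G z
  uniq : ∀ z ∈ ball (0 : ℂ) 1, ∀ y ∈ ball (0 : ℂ) 1, G z = 0 → G y = 0 → z = y
  nomax : ∀ z ∈ ball (0 : ℂ) 1, 0 < G z → ¬IsLocalMax G z

variable {G : ℂ → ℝ}

/-- the complement of a sublevel set has no bounded component -/
theorem Good.hl (h : Good G) {l : ℝ} (hl : 0 ≤ l) {q : ℂ} (hq : l < G q) :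
    HL {z ∈ ball (0 : ℂ) 1 | G z ≤ l} q := by
  set K := {z ∈ ball (0 : ℂ) 1 | G z ≤ l} with hK
  have cK : IsClosed K := (h.cpt l).isClosed
  have qK : q ∈ Kᶜ := fun hm => absurd hm.2 (not_le.2 hq)
  have qU := mem_connectedComponentIn qK
  by_cases ho : ∃ y ∈ connectedComponentIn Kᶜ q, 1 ≤ ‖y‖
  · obtain ⟨y, hy, hy'⟩ := ho
    exact HL.conn cK isPreconnected_connectedComponentIn (connectedComponentIn_subset _ _) hy qU
      (HL_out (fun z hz => hz.1) hy')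
  exfalso
  push Not at ho
  have sub : connectedComponentIn Kᶜ q ⊆ ball 0 1 := fun y hy => mem_ball_zero_iff.2 (ho y hy)
  have nb : ∀ z ∈ closure (connectedComponentIn Kᶜ q), z ∉ K → connectedComponentIn Kᶜ q ∈ 𝓝 z :=
    fun z hz hz' => cc_nhds hz (cK.isOpen_compl.mem_nhds hz')
  have sub' : closure (connectedComponentIn Kᶜ q) ⊆ ball 0 1 := fun z hz => by
    by_cases hz' : z ∈ K
    · exact hz'.1
    · exact sub (mem_of_mem_nhds (nb z hz hz'))
  obtain ⟨z, hz, hm⟩ := (isBounded_ball.subset sub).isCompact_closure.exists_isMaxOn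
    ⟨q, subset_closure qU⟩ (h.cont.mono sub')
  have h1 : l < G z := hq.trans_le (hm (subset_closure qU))
  exact h.nomax z (sub' hz) (hl.trans_lt h1) (hm.isLocalMax (mem_of_superset
    (nb z hz fun hk => absurd hk.2 (not_le.2 h1)) subset_closure))

/-- the order of birth -/
def old (G : ℂ → ℝ) (z y : ℂ) : Prop := G z < G y ∨ (G z = G y ∧ WellOrderingRel z y)

theorem old.le {z y : ℂ} (h : old G z y) : G z ≤ G y := h.elim le_of_lt fun h => h.1.le

theorem old.irrefl (z : ℂ) : ¬old G z z := fun h => h.elim (lt_irrefl _) fun h => _root_.irrefl _ h.2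

theorem old.trans {x y z : ℂ} (h : old G x y) (h' : old G y z) : old G x z := by
  rcases h with h | h
  · exact Or.inl (h.trans_le h'.le)
  rcases h' with h' | h'
  · exact Or.inl (h.1.trans_lt h')
  · exact Or.inr ⟨h.1.trans h'.1, _root_.trans h.2 h'.2⟩

theorem old.tri (G : ℂ → ℝ) {x y : ℂ} (h : x ≠ y) : old G x y ∨ old G y x := by
  rcases lt_trichotomy (G x) (G y) with h1 | h1 | h1
  · exact Or.inl (Or.inl h1)
  · rcases trichotomous_of WellOrderingRel x y with h2 | h2 | h2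
    · exact Or.inl (Or.inr ⟨h1, h2⟩)
    · exact absurd h2 h
    · exact Or.inr (Or.inr ⟨h1.symm, h2⟩)
  · exact Or.inr (Or.inl h1)

/-- the points older than `p` -/
def bef (G : ℂ → ℝ) (p : ℂ) : Set ℂ := {z ∈ ball (0 : ℂ) 1 | old G z p}

/-- every component has an eldest point, a local minimum -/
theorem Good.eldest (h : Good G) {p x : ℂ} (hx : x ∈ ball (0 : ℂ) 1) (hl : G x < G p) :
    ∃ m ∈ connectedComponentIn (bef G p) x, IsLocalMin G m ∧ G m < G p ∧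
      ∀ z ∈ connectedComponentIn (bef G p) x, z = m ∨ old G m z := by
  set A := connectedComponentIn (bef G p) x with hA
  have xA : x ∈ A := mem_connectedComponentIn ⟨hx, Or.inl hl⟩
  have sub : closure A ⊆ {z ∈ ball (0 : ℂ) 1 | G z ≤ G p} := closure_minimal
    (fun z hz => ⟨(connectedComponentIn_subset _ _ hz).1, (connectedComponentIn_subset _ _ hz).2.le⟩)
    (h.cpt _).isClosed
  have nb : ∀ z ∈ closure A, G z < G p → A ∈ 𝓝 z := fun z hz hz' => cc_nhds hz (by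
    have b := isOpen_ball.mem_nhds (sub hz).1
    filter_upwards [b, (h.cont.continuousAt b).eventually (gt_mem_nhds hz')] with y h1 h2
    exact ⟨h1, Or.inl h2⟩)
  obtain ⟨z₀, hz₀, hm⟩ := ((h.cpt _).of_isClosed_subset isClosed_closure sub).exists_isMinOn
    ⟨x, subset_closure xA⟩ (h.cont.mono fun z hz => (sub hz).1)
  have ne : {z ∈ A | ∀ y ∈ A, G z ≤ G y}.Nonempty := ⟨z₀, mem_of_mem_nhds
    (nb z₀ hz₀ (lt_of_le_of_lt (hm (subset_closure xA)) hl)), fun y hy => hm (subset_closure hy)⟩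
  obtain ⟨m, ⟨mA, hm1⟩, hm2⟩ := (IsWellFounded.wf (r := WellOrderingRel)).has_min _ ne
  have ml : G m < G p := (hm1 x xA).trans_lt hl
  refine ⟨m, mA, mem_of_superset (nb m (subset_closure mA) ml) fun y hy => hm1 y hy, ml,
    fun z hz => ?_⟩
  by_cases e : z = m
  · exact Or.inl e
  refine Or.inr ((old.tri G e).resolve_left fun ho => ?_)
  rcases ho with ho | ho
  · exact absurd (hm1 z hz) (not_le.2 ho)
  · exact hm2 z ⟨hz, fun y hy => ho.1.trans_le (hm1 y hy)⟩ ho.2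

theorem ray_sub {S : Set ℂ} {p v : ℂ} {ε : ℝ} (hε : 0 < ε)
    (h : ∀ s : ℝ, 0 < s → s ≤ ε → p + s * v ∈ S) {s : ℝ} (h0 : 0 < s) (h1 : s ≤ ε) :
    p + s * v ∈ connectedComponentIn S (p + ε * v) :=
  (isPreconnected_Ioc.image (fun s : ℝ => p + s * v) (by fun_prop)).subset_connectedComponentIn
    (mem_image_of_mem _ (⟨hε, le_rfl⟩ : ε ∈ Ioc 0 ε)) (by
      rintro _ ⟨t, ht, rfl⟩; exact h t ht.1 ht.2) (mem_image_of_mem _ (⟨h0, h1⟩ : s ∈ Ioc 0 ε))

theorem ray_closure {S : Set ℂ} {p v : ℂ} {ε : ℝ} (hε : 0 < ε)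
    (h : ∀ s : ℝ, 0 < s → s ≤ ε → p + s * v ∈ S) : p ∈ closure S := by
  have : Continuous fun s : ℝ => p + s * v := by fun_prop
  refine mem_closure_of_tendsto (f := fun s : ℝ => p + s * v) (b := 𝓝[>] 0)
    (by simpa using (this.tendsto 0).mono_left nhdsWithin_le_nhds) ?_
  filter_upwards [Ioc_mem_nhdsGT hε] with s hs using h s hs.1 hs.2

/-- one saddle -/
theorem Good.one (h : Good G) {p v w : ℂ} (hp : p ∈ ball (0 : ℂ) 1) (hs : IsSad G p v w) :
    ∃ (m m' x : ℂ) (C : Set ℂ), IsPreconnected C ∧ C ⊆ insert p (bef G p) ∧ p ∈ C ∧ m ∈ C ∧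
      m' ∈ C ∧ old G m' m ∧ IsLocalMin G m ∧ IsLocalMin G m' ∧ G m < G p ∧
      m ∈ connectedComponentIn (bef G p) x ∧
      (∀ z ∈ connectedComponentIn (bef G p) x, z = m ∨ old G m z) ∧
      ((∀ᶠ s : ℝ in 𝓝[>] 0, p + s * v ∈ connectedComponentIn (bef G p) x) ∨
        ∀ᶠ s : ℝ in 𝓝[>] 0, p + s * -v ∈ connectedComponentIn (bef G p) x) := by
  have cb : ∀ᶠ s : ℝ in 𝓝[≠] 0, p + s * v ∈ ball (0 : ℂ) 1 := by
    have : Continuous fun s : ℝ => p + s * v := by fun_prop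
    exact mem_nhdsWithin_of_mem_nhds ((isOpen_ball.preimage this).mem_nhds (by simpa using hp))
  obtain ⟨δ, hδ, hd⟩ := Metric.mem_nhdsWithin_iff.1 (cb.and hs.2)
  set ε := δ / 2 with hε
  have e0 : 0 < ε := half_pos hδ
  have all : ∀ s : ℝ, s ≠ 0 → |s| ≤ ε →
      p + s * v ∈ ball (0 : ℂ) 1 ∧ G (p + s * v) < G p ∧ G p < G (p + s * w) := fun s h0 h1 =>
    hd ⟨by rw [mem_ball_zero_iff, Real.norm_eq_abs]; linarith, h0⟩
  have r1 : ∀ s : ℝ, 0 < s → s ≤ ε → p + s * v ∈ bef G p := fun s h0 h1 =>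
    have := all s h0.ne' (by rwa [abs_of_pos h0]); ⟨this.1, Or.inl this.2.1⟩
  have r2' : ∀ s : ℝ, 0 < s → s ≤ ε → p + s * -v ∈ ball (0 : ℂ) 1 ∧ G (p + s * -v) < G p :=
    fun s h0 h1 => by
      have := all (-s) (neg_ne_zero.2 h0.ne') (by rwa [abs_neg, abs_of_pos h0])
      rw [ofReal_neg, neg_mul, ← mul_neg] at this
      exact ⟨this.1, this.2.1⟩
  have r2 : ∀ s : ℝ, 0 < s → s ≤ ε → p + s * -v ∈ bef G p := fun s h0 h1 =>
    ⟨(r2' s h0 h1).1, Or.inl (r2' s h0 h1).2⟩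
  have a0 := all ε e0.ne' (abs_of_pos e0).le
  obtain ⟨m₁, a1, b1, c1, d1⟩ := h.eldest a0.1 a0.2.1
  obtain ⟨m₂, a2, b2, c2, d2⟩ := h.eldest (r2' ε e0 le_rfl).1 (r2' ε e0 le_rfl).2
  set A₁ := connectedComponentIn (bef G p) (p + ε * v) with hA₁
  set A₂ := connectedComponentIn (bef G p) (p + ε * -v) with hA₂
  have s1 : ∀ s : ℝ, 0 < s → s ≤ ε → p + s * v ∈ A₁ := fun s => ray_sub e0 r1
  have s2 : ∀ s : ℝ, 0 < s → s ≤ ε → p + s * -v ∈ A₂ := fun s => ray_sub e0 r2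
  have ne : m₁ ≠ m₂ := by
    rintro rfl
    have e : A₂ = A₁ := (connectedComponentIn_eq a2).trans (connectedComponentIn_eq a1).symm
    have p0 := h.nonneg p hp
    refine cross (K := {z ∈ ball (0 : ℂ) 1 | G z ≤ G p}) (C := A₁) (p := p) (v := v) (u := ε * w)
      ?_ ⟨hp, le_rfl⟩ (fun s h0 h1 hm => ?_) (h.hl p0 a0.2.2) (h.hl p0 ?_)
      isPreconnected_connectedComponentIn (fun z hz => ⟨(connectedComponentIn_subset _ _ hz).1,
        (connectedComponentIn_subset _ _ hz).2.le⟩)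
      (fun hm => old.irrefl p (connectedComponentIn_subset _ _ hm).2) ?_
    · rw [mul_left_comm, im_ofReal_mul]
      exact mul_ne_zero e0.ne' hs.1
    · have := (all (s * ε) (mul_ne_zero h0 e0.ne') (by
        rw [abs_mul, abs_of_pos e0]; exact mul_le_of_le_one_left e0.le h1)).2.2
      rw [ofReal_mul, mul_assoc] at this
      exact absurd hm.2 (not_le.2 this)
    · have := (all (-ε) (neg_ne_zero.2 e0.ne') (by rw [abs_neg, abs_of_pos e0])).2.2
      rwa [ofReal_neg, neg_mul, ← sub_eq_add_neg] at this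
    · filter_upwards [mem_nhdsWithin_of_mem_nhds (Icc_mem_nhds (neg_lt_zero.2 e0) e0),
        self_mem_nhdsWithin] with s hs hs0
      rcases lt_or_gt_of_ne (show s ≠ 0 from hs0) with h0 | h0
      · have := s2 (-s) (neg_pos.2 h0) (by linarith [hs.1])
        rwa [ofReal_neg, neg_mul_neg, e] at this
      · exact s1 s h0 hs.2
  have pc : ∀ A : Set ℂ, IsPreconnected A → p ∈ closure A → IsPreconnected (insert p A) :=
    fun A hA hc => hA.subset_closure (subset_insert _ _) (insert_subset hc subset_closure)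
  have hC : IsPreconnected (insert p A₁ ∪ insert p A₂) :=
    (pc _ isPreconnected_connectedComponentIn (ray_closure e0 s1)).union p (mem_insert _ _)
      (mem_insert _ _) (pc _ isPreconnected_connectedComponentIn (ray_closure e0 s2))
  have hC' : insert p A₁ ∪ insert p A₂ ⊆ insert p (bef G p) := union_subset
    (insert_subset_insert (connectedComponentIn_subset _ _))
    (insert_subset_insert (connectedComponentIn_subset _ _))
  have m1 : m₁ ∈ insert p A₁ ∪ insert p A₂ := Or.inl (Or.inr a1)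
  have m2 : m₂ ∈ insert p A₁ ∪ insert p A₂ := Or.inr (Or.inr a2)
  rcases old.tri G ne with ho | ho
  · refine ⟨m₂, m₁, _, _, hC, hC', Or.inl (mem_insert _ _), m2, m1, ho, b2, b1, c2, a2, d2,
      Or.inr ?_⟩
    filter_upwards [Ioc_mem_nhdsGT e0] with s hs using s2 s hs.1 hs.2
  · refine ⟨m₁, m₂, _, _, hC, hC', Or.inl (mem_insert _ _), m1, m2, ho, b1, b2, c1, a1, d1,
      Or.inl ?_⟩
    filter_upwards [Ioc_mem_nhdsGT e0] with s hs using s1 s hs.1 hs.2

/-- MORSE PAIRING.  The last two clauses are the persistence data. -/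
theorem Good.pairing (h : Good G) {P : Set ℂ} {v w : ℂ → ℂ} (hP : P ⊆ ball 0 1)
    (hs : ∀ p ∈ P, IsSad G p (v p) (w p)) : ∃ φ : ℂ → ℂ, InjOn φ P ∧ ∀ p ∈ P,
      φ p ∈ ball (0 : ℂ) 1 ∧ IsLocalMin G (φ p) ∧ 0 < G (φ p) ∧ G (φ p) < G p ∧
      (∃ C ⊆ {z ∈ ball (0 : ℂ) 1 | G z ≤ G p}, IsPreconnected C ∧ p ∈ C ∧ φ p ∈ C ∧
        ∃ m ∈ C, m ≠ φ p ∧ IsLocalMin G m ∧ G m ≤ G (φ p)) ∧
      ∀ S₁ S₂ : Set ℂ, IsPreconnected S₁ → IsPreconnected S₂ →
        S₁ ⊆ {z ∈ ball (0 : ℂ) 1 | G z < G p} → S₂ ⊆ {z ∈ ball (0 : ℂ) 1 | G z < G p} →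
        (∀ᶠ s : ℝ in 𝓝[>] 0, p + s * v p ∈ S₁ ∧ p + s * -v p ∈ S₂) →
        (∀ z ∈ S₁, G (φ p) ≤ G z) ∨ ∀ z ∈ S₂, G (φ p) ≤ G z := by
  choose! φ m' x C c1 c2 c3 c4 c5 c6 c7 c8 c9 c10 c11 c12 using
    fun p (hp : p ∈ P) => h.one (hP hp) (hs p hp)
  have key : ∀ p ∈ P, ∀ p' ∈ P, old G p p' → φ p ≠ φ p' := by
    intro p hp p' hp' ho e
    have sub : C p ⊆ bef G p' := fun z hz => (c2 p hp hz).elim (fun e => e ▸ ⟨hP hp, ho⟩)
      fun hz => ⟨hz.1, hz.2.trans ho⟩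
    have h1 := (c1 p hp).subset_connectedComponentIn (c4 p hp) sub (c5 p hp)
    rw [e, ← connectedComponentIn_eq (c10 p' hp')] at h1
    have h2 := c6 p hp
    rw [e] at h2
    rcases c11 p' hp' _ h1 with h3 | h3
    · exact old.irrefl _ (h3 ▸ h2)
    · exact old.irrefl _ (h3.trans h2)
  refine ⟨φ, fun p hp p' hp' e => ?_, fun p hp => ?_⟩
  · by_contra ne
    exact (old.tri G ne).elim (fun ho => key p hp p' hp' ho e) fun ho => key p' hp' p hp ho e.symm
  have sub : C p ⊆ {z ∈ ball (0 : ℂ) 1 | G z ≤ G p} := fun z hz =>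
    (c2 p hp hz).elim (fun e => by rw [e]; exact ⟨hP hp, le_rfl⟩) fun hz => ⟨hz.1, hz.2.le⟩
  have ne : m' p ≠ φ p := fun e => old.irrefl _ (e ▸ c6 p hp)
  have b1 := (sub (c4 p hp)).1
  have b2 := (sub (c5 p hp)).1
  refine ⟨b1, c7 p hp, (h.nonneg _ b1).lt_of_ne' fun e => ne (h.uniq _ b2 _ b1
    (le_antisymm (e ▸ (c6 p hp).le) (h.nonneg _ b2)) e), c9 p hp,
    ⟨C p, sub, c1 p hp, c3 p hp, c4 p hp, m' p, c5 p hp, ne, c8 p hp, (c6 p hp).le⟩,
    fun S₁ S₂ h1 h2 h3 h4 h5 => ?_⟩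
  have fin : ∀ S : Set ℂ, IsPreconnected S → S ⊆ {z ∈ ball (0 : ℂ) 1 | G z < G p} →
      ∀ y ∈ S, y ∈ connectedComponentIn (bef G p) (x p) → ∀ z ∈ S, G (φ p) ≤ G z := by
    intro S hS hs y hy hy' z hz
    have := hS.subset_connectedComponentIn (F := bef G p) hy
      (fun z hz => ⟨(hs hz).1, Or.inl (hs hz).2⟩) hz
    rw [← connectedComponentIn_eq hy'] at this
    exact (c11 p hp z this).elim (fun e => e ▸ le_rfl) old.le
  rcases c12 p hp with h6 | h6
  · obtain ⟨s, hs1, hs2⟩ := (h5.and h6).exists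
    exact Or.inl (fin S₁ h1 h3 _ hs1.1 hs2)
  · obtain ⟨s, hs1, hs2⟩ := (h5.and h6).exists
    exact Or.inr (fin S₂ h2 h4 _ hs1.2 hs2)

end Crest.Agent.R131
end

-- ▼ part PVc/R131/Test18
section

/-! # Row 131: second derivative tests for `sG` -/

set_option autoImplicit false

namespace Crest.Agent.R131.T18

open Set Metric Filter Topology Complex
open scoped ComplexConjugate

theorem strict_min {e e' : ℝ → ℝ} {k : ℝ} (h1 : ∀ᶠ s in 𝓝 (0 : ℝ), HasDerivAt e (e' s) s)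
    (h0 : e' 0 = 0) (h2 : HasDerivAt e' k 0) (hk : 0 < k) : ∀ᶠ s in 𝓝[≠] (0 : ℝ), e 0 < e s := by
  have h3 : ∀ᶠ s in 𝓝[≠] (0 : ℝ), 0 < slope e' 0 s :=
    (hasDerivAt_iff_tendsto_slope.1 h2).eventually (lt_mem_nhds hk)
  obtain ⟨δ, hδ, hd⟩ := Metric.mem_nhdsWithin_iff.1 h3
  obtain ⟨δ', hδ', hd'⟩ := Metric.eventually_nhds_iff_ball.1 h1
  filter_upwards [mem_nhdsWithin_of_mem_nhds (ball_mem_nhds (0 : ℝ) (lt_min hδ hδ')),
    self_mem_nhdsWithin] with s hs hs0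
  rw [mem_ball_zero_iff, Real.norm_eq_abs, lt_min_iff, abs_lt, abs_lt] at hs
  have D : ∀ t, -δ' < t → t < δ' → HasDerivAt e (e' t) t := fun t a b =>
    hd' t (by rw [mem_ball_zero_iff, Real.norm_eq_abs, abs_lt]; exact ⟨a, b⟩)
  have S : ∀ t, t ≠ 0 → -δ < t → t < δ → 0 < e' t / t := fun t n a b => by
    have := hd ⟨by rw [mem_ball_zero_iff, Real.norm_eq_abs, abs_lt]; exact ⟨a, b⟩, n⟩
    simpa [slope_def_field, h0] using this
  rcases lt_or_gt_of_ne (show s ≠ 0 from hs0) with h | h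
  · obtain ⟨t, ht, e1⟩ := exists_hasDerivAt_eq_slope e e' h (fun t ht =>
      (D t (by linarith [ht.1, hs.2.1]) (by linarith [ht.2])).continuousAt.continuousWithinAt)
      fun t ht => D t (by linarith [ht.1, hs.2.1]) (by linarith [ht.2])
    have := S t ht.2.ne (by linarith [ht.1, hs.1.1]) (by linarith [ht.2])
    have h4 : e' t < 0 := by
      by_contra h4
      exact absurd this (not_lt.2 (div_nonpos_of_nonneg_of_nonpos (not_lt.1 h4) ht.2.le))
    rw [e1, div_lt_iff₀ (by linarith)] at h4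
    linarith
  · obtain ⟨t, ht, e1⟩ := exists_hasDerivAt_eq_slope e e' h (fun t ht =>
      (D t (by linarith [ht.1]) (by linarith [ht.2, hs.2.2])).continuousAt.continuousWithinAt)
      fun t ht => D t (by linarith [ht.1]) (by linarith [ht.2, hs.2.2])
    have := S t ht.1.ne' (by linarith [ht.1]) (by linarith [ht.2, hs.1.2])
    rw [e1, div_pos_iff_of_pos_right ht.1, div_pos_iff_of_pos_right (by linarith)] at this
    linarith

theorem log_norm {g : ℝ → ℂ} {g' : ℂ} {s : ℝ} (h : HasDerivAt g g' s) (h0 : g s ≠ 0) :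
    HasDerivAt (fun s => Real.log (‖g s‖ ^ 2)) (2 * (g' / g s).re) s := by
  have n0 : ‖g s‖ ^ 2 ≠ 0 := pow_ne_zero _ (norm_ne_zero_iff.2 h0)
  convert h.norm_sq.log n0 using 1
  rw [Complex.inner, div_re, Complex.sq_norm, mul_re, conj_re, conj_im]
  ring

variable {f : ℂ → ℂ} {c : ℝ} {a p : ℂ}

/-- the gradient of `log sG` -/
noncomputable def W (f : ℂ → ℂ) (c : ℝ) (a z : ℂ) : ℂ :=
  deriv f z / (f z - a) + (1 + c) * (conj z / (1 - z * conj z))

theorem one_sub (z : ℂ) : 1 - z * conj z = ((1 - ‖z‖ ^ 2 : ℝ) : ℂ) := by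
  rw [mul_conj']; push_cast; rfl

theorem dpos (hp : p ∈ ball (0 : ℂ) 1) : 0 < 1 - ‖p‖ ^ 2 := by
  have := mem_ball_zero_iff.1 hp
  nlinarith [norm_nonneg p]

theorem sG_pos (hp : p ∈ ball (0 : ℂ) 1) (ha : f p ≠ a) : 0 < sG f c a p :=
  div_pos (pow_pos (norm_pos_iff.2 (sub_ne_zero.2 ha)) _) (Real.rpow_pos_of_pos (dpos hp) _)

theorem line (p v : ℂ) (s : ℝ) : HasDerivAt (fun s : ℝ => p + s * v) v s := by
  simpa using ((hasDerivAt_id s).ofReal_comp.mul_const v).const_add p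

theorem near (hf : DifferentiableOn ℂ f (ball 0 1)) (hp : p ∈ ball (0 : ℂ) 1) (ha : f p ≠ a)
    (v : ℂ) : ∀ᶠ s : ℝ in 𝓝 0, p + s * v ∈ ball (0 : ℂ) 1 ∧ f (p + s * v) ≠ a := by
  have t : Tendsto (fun s : ℝ => p + s * v) (𝓝 0) (𝓝 p) := by
    simpa using (line p v 0).continuousAt.tendsto
  have b := isOpen_ball.mem_nhds hp
  exact t.eventually (Eventually.and b ((hf.continuousOn.continuousAt b).eventually_ne ha))

theorem d1 (hf : DifferentiableOn ℂ f (ball 0 1)) (hp : p ∈ ball (0 : ℂ) 1) (ha : f p ≠ a)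
    (v : ℂ) : ∀ᶠ s : ℝ in 𝓝 0, HasDerivAt (fun s : ℝ => Real.log (sG f c a (p + s * v)))
      (2 * (W f c a (p + s * v) * v).re) s := by
  filter_upwards [near hf hp ha v, (near hf hp ha v).eventually_nhds] with s hs hs'
  have h1 := (((hf.differentiableAt (isOpen_ball.mem_nhds hs.1)).hasDerivAt.comp_of_eq s
    (line p v s) rfl).sub_const a)
  have h2 := log_norm h1 (sub_ne_zero.2 hs.2)
  have h3 := (((line p v s).norm_sq.const_sub 1).log (dpos hs.1).ne').const_mul (1 + c)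
  refine ((h2.sub h3).congr_of_eventuallyEq ?_).congr_deriv ?_
  · filter_upwards [hs'] with t ht
    rw [sG, Real.log_div (pow_ne_zero _ (norm_ne_zero_iff.2 (sub_ne_zero.2 ht.2)))
      (Real.rpow_pos_of_pos (dpos ht.1) _).ne', Real.log_rpow (dpos ht.1)]
    rfl
  · have e : W f c a (p + s * v) * v = deriv f (p + s * v) * v / (f (p + s * v) - a) +
        ((1 + c) / (1 - ‖p + s * v‖ ^ 2) : ℝ) * (v * conj (p + s * v)) := by
      rw [W, one_sub]; push_cast; ring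
    rw [e, add_re, re_ofReal_mul, Complex.inner]
    simp only [Function.comp]
    ring

/-- the holomorphic part of the Hessian -/
noncomputable def B (f : ℂ → ℂ) (c : ℝ) (a p : ℂ) : ℂ :=
  deriv (deriv f) p / (f p - a) - (deriv f p / (f p - a)) ^ 2 +
    (1 + c) * (conj p / (1 - p * conj p)) ^ 2

theorem d2 (hf : DifferentiableOn ℂ f (ball 0 1)) (hp : p ∈ ball (0 : ℂ) 1) (ha : f p ≠ a)
    (v : ℂ) : HasDerivAt (fun s : ℝ => 2 * (W f c a (p + s * v) * v).re)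
      (2 * ((B f c a p * v ^ 2).re + (1 + c) / (1 - ‖p‖ ^ 2) ^ 2 * ‖v‖ ^ 2)) 0 := by
  have b := isOpen_ball.mem_nhds hp
  have e0 : p = p + (0 : ℝ) * v := by simp
  have h1 := ((hf.differentiableAt b).hasDerivAt.comp_of_eq (0 : ℝ) (line p v 0) e0).sub_const a
  have h2 := ((hf.deriv isOpen_ball).differentiableAt b).hasDerivAt.comp_of_eq (0 : ℝ)
    (line p v 0) e0
  have h3 := (line p v 0).star
  have n1 : f p - a ≠ 0 := sub_ne_zero.2 ha
  have n2 : 1 - p * conj p ≠ 0 := by rw [one_sub]; exact ofReal_ne_zero.2 (dpos hp).ne'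
  have h4 := ((h2.div h1 (by simpa using n1)).add ((h3.div (((line p v 0).mul h3).const_sub 1)
    (by simpa using n2)).const_mul (1 + c : ℂ))).mul_const v
  have h5 := (reCLM.hasFDerivAt.comp_hasDerivAt (0 : ℝ) h4).const_mul 2
  refine h5.congr_deriv ?_
  congr 1
  rw [reCLM_apply, ← ofReal_re ((1 + c) / (1 - ‖p‖ ^ 2) ^ 2 * ‖v‖ ^ 2), ← add_re]
  congr 1
  rw [ofReal_mul, ofReal_div, ofReal_pow, ← one_sub, ofReal_pow, ← mul_conj']
  simp only [Function.comp, ofReal_zero, zero_mul, add_zero, B, Pi.mul_apply, RCLike.star_def]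
  push_cast
  field_simp
  ring

theorem up (hf : DifferentiableOn ℂ f (ball 0 1)) (hp : p ∈ ball (0 : ℂ) 1) (ha : f p ≠ a)
    (hW : W f c a p = 0) {v : ℂ}
    (h : 0 < (B f c a p * v ^ 2).re + (1 + c) / (1 - ‖p‖ ^ 2) ^ 2 * ‖v‖ ^ 2) :
    ∀ᶠ s : ℝ in 𝓝[≠] 0, sG f c a p < sG f c a (p + s * v) := by
  filter_upwards [strict_min (d1 (c := c) hf hp ha v) (by simp [hW]) (d2 (c := c) hf hp ha v) (by linarith),
    mem_nhdsWithin_of_mem_nhds (near hf hp ha v)] with s h1 h2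
  rw [Real.log_lt_log_iff (by simpa using sG_pos hp ha) (sG_pos h2.1 h2.2)] at h1
  simpa using h1

theorem down (hf : DifferentiableOn ℂ f (ball 0 1)) (hp : p ∈ ball (0 : ℂ) 1) (ha : f p ≠ a)
    (hW : W f c a p = 0) {v : ℂ}
    (h : (B f c a p * v ^ 2).re + (1 + c) / (1 - ‖p‖ ^ 2) ^ 2 * ‖v‖ ^ 2 < 0) :
    ∀ᶠ s : ℝ in 𝓝[≠] 0, sG f c a (p + s * v) < sG f c a p := by
  filter_upwards [strict_min ((d1 (c := c) hf hp ha v).mono fun s hs => hs.neg) (by simp [hW])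
    (d2 (c := c) hf hp ha v).neg (by linarith), mem_nhdsWithin_of_mem_nhds (near hf hp ha v)] with s h1 h2
  simp only [Pi.neg_apply, neg_lt_neg_iff] at h1
  rw [Real.log_lt_log_iff (sG_pos h2.1 h2.2) (by simpa using sG_pos hp ha)] at h1
  simpa using h1

theorem crit (hf : DifferentiableOn ℂ f (ball 0 1)) (hp : p ∈ ball (0 : ℂ) 1) (ha : f p ≠ a)
    (h : IsLocalExtr (sG f c a) p) : W f c a p = 0 := by
  have key : ∀ v, (W f c a p * v).re = 0 := by
    intro v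
    have t : Tendsto (fun s : ℝ => p + s * v) (𝓝 0) (𝓝 p) := by
      simpa using (line p v 0).continuousAt.tendsto
    have e : IsLocalExtr (fun s : ℝ => Real.log (sG f c a (p + s * v))) 0 := by
      rcases h with h | h
      · refine Or.inl ?_
        filter_upwards [t.eventually h] with s hs
        simpa using Real.log_le_log (sG_pos hp ha) hs
      · refine Or.inr ?_
        filter_upwards [t.eventually h, near hf hp ha v] with s hs h2
        simpa using Real.log_le_log (sG_pos h2.1 h2.2) hs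
    simpa using e.hasDerivAt_eq_zero (d1 hf hp ha v).self_of_nhds
  exact Complex.ext (by simpa using key 1) (by simpa using key I)

theorem ne_of_pos (h : 0 < sG f c a p) : f p ≠ a := fun e => by simp [sG, e] at h

theorem not_le_line {G : ℂ → ℝ} {v : ℂ} {r : ℝ → ℝ → Prop} (h : ∀ᶠ z in 𝓝 p, r (G z) (G p))
    (h' : ∀ᶠ s : ℝ in 𝓝[≠] 0, ¬r (G (p + s * v)) (G p)) : False := by
  have t : Tendsto (fun s : ℝ => p + s * v) (𝓝[≠] 0) (𝓝 p) := by
    simpa using (line p v 0).continuousAt.tendsto.mono_left nhdsWithin_le_nhds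
  obtain ⟨s, h1, h2⟩ := ((t.eventually h).and h').exists
  exact h2 h1

theorem nomax (hf : DifferentiableOn ℂ f (ball 0 1)) (hc : -1 < c) (hp : p ∈ ball (0 : ℂ) 1)
    (h0 : 0 < sG f c a p) : ¬IsLocalMax (sG f c a) p := by
  intro h
  have ha := ne_of_pos h0
  have hW := crit hf hp ha (Or.inr h)
  have A0 : 0 < (1 + c) / (1 - ‖p‖ ^ 2) ^ 2 := div_pos (by linarith) (pow_pos (dpos hp) _)
  rcases le_total 0 (B f c a p).re with h1 | h1
  · exact not_le_line (r := (· ≤ ·)) h ((up hf hp ha hW (v := 1) (by simp; linarith)).mono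
      fun s hs => not_le.2 hs)
  · exact not_le_line (r := (· ≤ ·)) h ((up hf hp ha hW (v := I) (by simp; linarith)).mono
      fun s hs => not_le.2 hs)

theorem good {R : ℝ} (hR : 1 < R) (hf : DifferentiableOn ℂ f (ball 0 R))
    (hinj : InjOn f (ball 0 R)) (hc : -1 < c) (ha : ∀ z : ℂ, ‖z‖ = 1 → f z ≠ a) :
    Good (sG f c a) := by
  have s1 : ball (0 : ℂ) 1 ⊆ ball 0 R := ball_subset_ball hR.le
  have c0 : 0 < 1 + c := by linarith
  have cr : Continuous fun z : ℂ => (1 - ‖z‖ ^ 2) ^ (1 + c) :=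
    (Real.continuous_rpow_const c0.le).comp (by fun_prop)
  have zero : ∀ z ∈ ball (0 : ℂ) 1, sG f c a z = 0 → f z = a := fun z hz h => by
    by_contra hn
    exact (sG_pos hz hn).ne' h
  refine ⟨(((hf.continuousOn.mono s1).sub continuousOn_const).norm.pow 2).div cr.continuousOn
    fun z hz => (Real.rpow_pos_of_pos (dpos hz) _).ne', fun l => ?_, fun z hz =>
    div_nonneg (sq_nonneg _) (Real.rpow_pos_of_pos (dpos hz) _).le, fun z hz y hy h1 h2 =>
    hinj (s1 hz) (s1 hy) ((zero z hz h1).trans (zero y hy h2).symm),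
    fun z hz => nomax (hf.mono s1) hc hz⟩
  have e : {z ∈ ball (0 : ℂ) 1 | sG f c a z ≤ l} =
      {z ∈ closedBall (0 : ℂ) 1 | ‖f z - a‖ ^ 2 ≤ l * (1 - ‖z‖ ^ 2) ^ (1 + c)} := by
    ext z
    refine ⟨fun h => ⟨ball_subset_closedBall h.1,
      (div_le_iff₀ (Real.rpow_pos_of_pos (dpos h.1) _)).1 h.2⟩, fun h => ?_⟩
    have hz : z ∈ ball (0 : ℂ) 1 := by
      refine mem_ball_zero_iff.2 ((mem_closedBall_zero_iff.1 h.1).lt_of_ne fun e => ?_)
      have h2 := h.2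
      rw [e, one_pow, sub_self, Real.zero_rpow c0.ne', mul_zero] at h2
      exact absurd h2 (not_le.2 (pow_pos (norm_pos_iff.2 (sub_ne_zero.2 (ha z e))) _))
    exact ⟨hz, (div_le_iff₀ (Real.rpow_pos_of_pos (dpos hz) _)).2 h.2⟩
  rw [e]
  exact (isCompact_closedBall _ _).of_isClosed_subset (isClosed_closedBall.isClosed_le
    (((hf.continuousOn.mono (closedBall_subset_ball hR)).sub continuousOn_const).norm.pow 2)
    (continuous_const.mul cr).continuousOn) fun z hz => hz.1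

theorem sad (hf : DifferentiableOn ℂ f (ball 0 1)) (hc : -1 < c) (hp : p ∈ ball (0 : ℂ) 1)
    (hF : sF f c p = a) (hJ : 0 < sJ f c p) : ∃ v w, IsSad (sG f c a) p v w := by
  have p0 : p ≠ 0 := by rintro rfl; simp [sJ] at hJ
  have f0 : deriv f p ≠ 0 := fun e => by simp [sJ, e] at hJ
  have c0 : 0 < 1 + c := by linarith
  have c1 : (1 + c : ℂ) ≠ 0 := by exact_mod_cast c0.ne'
  have n2 : 1 - p * conj p ≠ 0 := by rw [one_sub]; exact ofReal_ne_zero.2 (dpos hp).ne'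
  have p1 : conj p ≠ 0 := (map_ne_zero _).2 p0
  have e : f p - a = -((1 - p * conj p) * deriv f p / ((1 + c) * conj p)) := by
    rw [← hF, sF, one_sub]; push_cast; ring
  have ha : f p ≠ a := sub_ne_zero.1 (by
    rw [e]; exact neg_ne_zero.2 (div_ne_zero (mul_ne_zero n2 f0) (mul_ne_zero c1 p1)))
  have hW : W f c a p = 0 := by
    rw [W, e]; field_simp; ring
  set A := (1 + c) / (1 - ‖p‖ ^ 2) ^ 2 with hA
  have A0 : 0 < A := div_pos c0 (pow_pos (dpos hp) _)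
  have hB : B f c a p = -(A * (conj p / p) * sX f c p) := by
    rw [B, e, sX, hA, ofReal_div, ofReal_pow, ← one_sub, ofReal_mul, ofReal_pow, ← mul_conj']
    push_cast
    field_simp
    ring
  have hX : 1 < ‖sX f c p‖ := by
    have h1 := (div_pos_iff_of_pos_right (by positivity)).1 hJ
    have h2 := (mul_pos_iff_of_pos_left (by positivity)).1 h1
    nlinarith [norm_nonneg (sX f c p)]
  have nB : A < ‖B f c a p‖ := by
    rw [hB, norm_neg, norm_mul, norm_mul, norm_div, RCLike.norm_conj,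
      div_self (norm_ne_zero_iff.2 p0), mul_one, norm_real, Real.norm_of_nonneg A0.le]
    nlinarith
  have B0 : B f c a p ≠ 0 := norm_pos_iff.1 (A0.trans nB)
  obtain ⟨w, hw⟩ := IsAlgClosed.exists_pow_nat_eq ((‖B f c a p‖ : ℂ) / B f c a p) two_pos
  have w1 : ‖w‖ ^ 2 = 1 := by
    rw [← norm_pow, hw, norm_div, norm_real, norm_norm, div_self (norm_ne_zero_iff.2 B0)]
  have w2 : B f c a p * w ^ 2 = ‖B f c a p‖ := by rw [hw]; field_simp
  refine ⟨I * w, w, ?_, (down hf hp ha hW ?_).and (up hf hp ha hW ?_)⟩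
  · rw [map_mul, mul_assoc, conj_mul', ← ofReal_pow, w1]
    simp
  · rw [mul_pow, I_sq, neg_one_mul, mul_neg, w2, norm_mul, norm_I, one_mul, w1, neg_re, ofReal_re]
    linarith
  · rw [w2, w1, ofReal_re]
    linarith

theorem min (hf : DifferentiableOn ℂ f (ball 0 1)) (hinj : InjOn f (ball 0 1)) (hc : -1 < c)
    (hp : p ∈ ball (0 : ℂ) 1) (h : IsLocalMin (sG f c a) p) (h0 : 0 < sG f c a p) :
    p ≠ 0 ∧ sF f c p = a ∧ sJ f c p ≤ 0 := by
  have ha := ne_of_pos h0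
  have hW := crit hf hp ha (Or.inl h)
  have f0 := Lib.Complex.deriv_ne_zero_of_injOn isOpen_ball hf hinj hp
  have n1 : f p - a ≠ 0 := sub_ne_zero.2 ha
  have c1 : (1 + c : ℂ) ≠ 0 := by exact_mod_cast (by linarith : (1 + c : ℝ) ≠ 0)
  have n2 : 1 - p * conj p ≠ 0 := by rw [one_sub]; exact ofReal_ne_zero.2 (dpos hp).ne'
  have p0 : p ≠ 0 := by
    rintro rfl
    simp [W, f0, n1] at hW
  have p1 : conj p ≠ 0 := (map_ne_zero _).2 p0
  have hF : sF f c p = a := by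
    rw [W, ← mul_div_assoc, div_add_div _ _ n1 n2, div_eq_zero_iff,
      or_iff_left (mul_ne_zero n1 n2)] at hW
    rw [sF, ← one_sub]
    push_cast
    field_simp
    linear_combination hW
  refine ⟨p0, hF, not_lt.1 fun hJ => ?_⟩
  obtain ⟨v, w, -, hs⟩ := sad hf hc hp hF hJ
  exact not_le_line (r := (· ≥ ·)) h (hs.mono fun s hs => not_le.2 hs.1)


end Crest.Agent.R131.T18
end

-- ▼ part PVc/R131/Star

set_option autoImplicit false
open MeasureTheory Set Metric Filter Topology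
open scoped ENNReal ComplexConjugate

namespace Crest.Agent.R131

theorem star_pairing (V : ℂ → ℝ) (hV : ContinuousOn V (ball 0 1))
    (hprop : ∀ s : ℝ, ∃ r < (1 : ℝ), ∀ z ∈ ball (0 : ℂ) 1, V z ≤ s → ‖z‖ ≤ r)
    (hnomax : ∀ z ∈ ball (0 : ℂ) 1, ¬IsLocalMax V z) (Sad : Set ℂ) (v w : ℂ → ℂ)
    (hseg : ∀ p ∈ Sad, ∀ t : ℝ, |t| ≤ 1 →
      p + t * v p ∈ ball (0 : ℂ) 1 ∧ (t ≠ 0 → V (p + t * v p) < V p))
    (hvw : ∀ p ∈ Sad, (w p / v p).im ≠ 0)
    (hup : ∀ p ∈ Sad, ∀ᶠ t : ℝ in 𝓝[≠] 0, V p < V (p + t * w p)) :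
    ∃ φ : ℂ → ℂ, InjOn φ Sad ∧ ∀ p ∈ Sad, φ p ∈ ball (0 : ℂ) 1 ∧ IsLocalMin V (φ p) ∧
      V (φ p) ≤ V p ∧
      (∃ C : Set ℂ, IsPreconnected C ∧ p ∈ C ∧ φ p ∈ C ∧
        C ⊆ {z | z ∈ ball (0 : ℂ) 1 ∧ V z ≤ V p}) ∧
      ∃ m ∈ ball (0 : ℂ) 1, m ≠ φ p ∧ V m ≤ V (φ p) := by
  obtain ⟨φ, h1, h2⟩ := pairing V hV hprop hnomax Sad v w hseg hvw hup
  refine ⟨φ, h1, fun p hp => ?_⟩
  obtain ⟨g1, g2, -, g4, g5⟩ := h2 p hp
  obtain ⟨γ, hγ⟩ := g4
  refine ⟨g1, g2, ?_, ⟨range γ, isPreconnected_range γ.continuous, ⟨1, γ.target⟩,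
    ⟨0, γ.source⟩, range_subset_iff.2 hγ⟩, g5⟩
  simpa using (hγ 0).2

section
variable {f : ℂ → ℂ} {R c : ℝ}

theorem star_jac (hR : 1 < R) (hf : DifferentiableOn ℂ f (ball 0 R))
    (hinj : InjOn f (ball 0 R)) (hc : -1 < c) {z : ℂ} (hz : z ∈ ball (0 : ℂ) 1) (h0 : z ≠ 0) :
    ∃ A : ℂ →L[ℝ] ℂ, HasStrictFDerivAt (sF f c) A z ∧ A.det = sJ f c z := by
  have hzR : z ∈ ball (0 : ℂ) R := ball_subset_ball hR.le hz
  have hc' : 1 + c ≠ 0 := by linarith
  exact ⟨JacF.F1 f c z,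
    JacF.hasStrictFDerivAt_Fm hc' (hf.analyticAt (isOpen_ball.mem_nhds hzR)) h0,
    JacF.det_F1 hc' h0 (Lib.Complex.deriv_ne_zero_of_injOn isOpen_ball hf hinj hzR)⟩

theorem star_nomax (hR : 1 < R) (hf : DifferentiableOn ℂ f (ball 0 R))
    (hinj : InjOn f (ball 0 R)) (hc : -1 < c) (a : ℂ) {z : ℂ} (hz : z ∈ ball (0 : ℂ) 1) :
    ¬IsLocalMax (sG f c a) z := by
  have s1 : ball (0 : ℂ) 1 ⊆ ball 0 R := ball_subset_ball hR.le
  by_cases ha : f z = a
  · intro h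
    have h0 : sG f c a z = 0 := by simp [sG, ha]
    have h1 : ∀ᶠ y in 𝓝[≠] z, sG f c a y ≤ sG f c a z ∧ y ∈ ball (0 : ℂ) 1 :=
      mem_nhdsWithin_of_mem_nhds (Eventually.and h (isOpen_ball.mem_nhds hz))
    obtain ⟨y, ⟨h2, h3⟩, h4⟩ := (h1.and self_mem_nhdsWithin).exists
    have h5 : f y ≠ a := fun e => h4 (hinj (s1 h3) (s1 hz) (e.trans ha.symm))
    exact absurd (T18.sG_pos (c := c) h3 h5) (not_lt.2 (h2.trans h0.le))
  · exact T18.nomax (hf.mono s1) hc hz (T18.sG_pos hz ha)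

theorem star_min (hR : 1 < R) (hf : DifferentiableOn ℂ f (ball 0 R))
    (hinj : InjOn f (ball 0 R)) (hc : -1 < c) (a : ℂ) {z : ℂ} (hz : z ∈ ball (0 : ℂ) 1)
    (hm : IsLocalMin (sG f c a) z) (ha : f z ≠ a) :
    z ≠ 0 ∧ sF f c z = a ∧ sJ f c z ≤ 0 :=
  T18.min (hf.mono (ball_subset_ball hR.le)) (hinj.mono (ball_subset_ball hR.le)) hc hz hm
    (T18.sG_pos hz ha)

theorem star_sad (hR : 1 < R) (hf : DifferentiableOn ℂ f (ball 0 R))
    (hinj : InjOn f (ball 0 R)) (hc : -1 < c) (a : ℂ) {p : ℂ} (hp : p ∈ ball (0 : ℂ) 1)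
    (hF : sF f c p = a) (hJ : 0 < sJ f c p) :
    ∃ v w : ℂ, (w / v).im ≠ 0 ∧ (∀ᶠ t : ℝ in 𝓝[≠] 0, sG f c a (p + t * v) < sG f c a p) ∧
      ∀ᶠ t : ℝ in 𝓝[≠] 0, sG f c a p < sG f c a (p + t * w) := by
  obtain ⟨v, w, h1, h2⟩ := T18.sad (hf.mono (ball_subset_ball hR.le)) hc hp hF hJ
  refine ⟨v, w, fun h => h1 ?_, h2.mono fun s hs => hs.1, h2.mono fun s hs => hs.2⟩
  by_cases hv : v = 0
  · simp [hv]
  · have e : conj v * w = (‖v‖ ^ 2 : ℝ) * (w / v) := by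
      rw [Complex.ofReal_pow, ← Complex.conj_mul']; field_simp
    rw [e, Complex.im_ofReal_mul, h, mul_zero]

theorem star_dpos {z : ℂ} (hz : z ∈ ball (0 : ℂ) 1) : 0 < 1 - ‖z‖ ^ 2 := by
  have h : ‖z‖ < 1 := by simpa using hz
  nlinarith [norm_nonneg z]

theorem star_cont (hR : 1 < R) (hf : DifferentiableOn ℂ f (ball 0 R)) (a : ℂ) :
    ContinuousOn (sG f c a) (ball 0 1) := by
  have h1 : ContinuousOn f (ball 0 1) := hf.continuousOn.mono (ball_subset_ball hR.le)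
  unfold sG
  refine ContinuousOn.div ((h1.sub continuousOn_const).norm.pow 2) ?_ ?_
  · refine ContinuousOn.rpow_const (by fun_prop) fun z hz => Or.inl (star_dpos hz).ne'
  · intro z hz
    exact (Real.rpow_pos_of_pos (star_dpos hz) _).ne'

theorem star_prop (hR : 1 < R) (hf : DifferentiableOn ℂ f (ball 0 R)) (hc : -1 < c) (a : ℂ)
    (ha : ∀ z : ℂ, ‖z‖ = 1 → f z ≠ a) (s : ℝ) :
    ∃ r < (1 : ℝ), ∀ z ∈ ball (0 : ℂ) 1, sG f c a z ≤ s → ‖z‖ ≤ r := by
  -- the set `K` is compact and misses the circle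
  let K : Set ℂ := {z | z ∈ closedBall (0 : ℂ) 1 ∧ ‖f z - a‖ ^ 2 ≤ s * (1 - ‖z‖ ^ 2) ^ (1 + c)}
  have h1 : ContinuousOn f (closedBall 0 1) :=
    hf.continuousOn.mono (closedBall_subset_ball hR)
  have h2 : Continuous fun z : ℂ => s * (1 - ‖z‖ ^ 2) ^ (1 + c) :=
    continuous_const.mul (Continuous.rpow_const (by fun_prop) fun _ => Or.inr (by linarith))
  have hK : IsCompact K := by
    refine (isCompact_closedBall (0 : ℂ) 1).of_isClosed_subset ?_ fun z hz => hz.1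
    exact isClosed_closedBall.isClosed_le ((h1.sub continuousOn_const).norm.pow 2) h2.continuousOn
  have hK1 : ∀ z ∈ K, ‖z‖ < 1 := by
    intro z hz
    have h3 : ‖z‖ ≤ 1 := by simpa using hz.1
    refine lt_of_le_of_ne h3 fun h4 => ha z h4 ?_
    have h5 := hz.2
    rw [h4, one_pow, sub_self, Real.zero_rpow (by linarith), mul_zero] at h5
    have h6 : ‖f z - a‖ = 0 := by nlinarith [norm_nonneg (f z - a)]
    exact sub_eq_zero.1 (norm_eq_zero.1 h6)
  have hsub : ∀ z ∈ ball (0 : ℂ) 1, sG f c a z ≤ s → z ∈ K := fun z hz h =>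
    ⟨ball_subset_closedBall hz, (div_le_iff₀ (Real.rpow_pos_of_pos (star_dpos hz) _)).1 h⟩
  rcases K.eq_empty_or_nonempty with hE | hne
  · exact ⟨0, one_pos, fun z hz h => by simpa [hE] using hsub z hz h⟩
  · obtain ⟨z₀, hz₀, hmax⟩ := hK.exists_isMaxOn hne continuous_norm.continuousOn
    exact ⟨‖z₀‖, hK1 z₀ hz₀, fun z hz h => hmax (hsub z hz h)⟩

theorem star_seg {V : ℂ → ℝ} {p v : ℂ} (hp : p ∈ ball (0 : ℂ) 1)
    (h : ∀ᶠ t : ℝ in 𝓝[≠] 0, V (p + t * v) < V p) :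
    ∃ ε : ℝ, 0 < ε ∧ ∀ t : ℝ, |t| ≤ 1 →
      p + t * (ε * v) ∈ ball (0 : ℂ) 1 ∧ (t ≠ 0 → V (p + t * (ε * v)) < V p) := by
  have h1 : ∀ᶠ t : ℝ in 𝓝 0, p + t * v ∈ ball (0 : ℂ) 1 := by
    have hc : Continuous fun t : ℝ => p + t * v := by fun_prop
    exact hc.continuousAt.eventually_mem (isOpen_ball.mem_nhds (by simpa using hp))
  rw [eventually_nhdsWithin_iff] at h
  obtain ⟨δ, hδ, hb⟩ := Metric.eventually_nhds_iff.1 (h1.and h)
  refine ⟨δ / 2, by positivity, fun t ht => ?_⟩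
  have h2 : dist (t * (δ / 2)) 0 < δ := by
    rw [Real.dist_eq, sub_zero, abs_mul, abs_of_pos (by positivity : 0 < δ / 2)]
    nlinarith [abs_nonneg t]
  have h3 := hb h2
  have e : p + ((t * (δ / 2) : ℝ) : ℂ) * v = p + t * (((δ / 2 : ℝ) : ℂ) * v) := by
    push_cast; ring
  rw [e] at h3
  exact ⟨h3.1, fun h0 => h3.2 (mul_ne_zero h0 (by positivity))⟩

theorem measurable_sJ (f : ℂ → ℂ) (c : ℝ) : Measurable (sJ f c) := by
  have h1 : Measurable (deriv f) := measurable_deriv f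
  have h2 : Measurable (deriv (deriv f)) := measurable_deriv _
  unfold sJ sX
  fun_prop


theorem sG_le_zero {a z : ℂ} (hz : z ∈ ball (0 : ℂ) 1) (h : sG f c a z ≤ 0) : f z = a := by
  have h1 := (div_le_iff₀ (Real.rpow_pos_of_pos (star_dpos hz) (1 + c))).1 h
  have h6 : ‖f z - a‖ = 0 := by nlinarith [norm_nonneg (f z - a)]
  exact sub_eq_zero.1 (norm_eq_zero.1 h6)

/-- the pairing in one regular fibre -/
theorem star_fibre (hR : 1 < R) (hf : DifferentiableOn ℂ f (ball 0 R))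
    (hinj : InjOn f (ball 0 R)) (hc : -1 < c) (a : ℂ) (ha : ∀ z : ℂ, ‖z‖ = 1 → f z ≠ a)
    (hreg : ∀ z ∈ ball (0 : ℂ) 1, z ≠ 0 → sF f c z = a → sJ f c z ≠ 0) :
    ∃ φ : ℂ → ℂ, InjOn φ {z | (z ∈ ball (0 : ℂ) 1 ∧ 0 < sJ f c z) ∧ sF f c z = a} ∧
      ∀ s, s ∈ ball (0 : ℂ) 1 → 0 < sJ f c s → sF f c s = a →
        φ s ∈ ball (0 : ℂ) 1 ∧ φ s ≠ 0 ∧ sF f c (φ s) = a ∧ sJ f c (φ s) < 0 ∧
        sG f c a (φ s) ≤ sG f c a s ∧
        ∃ C : Set ℂ, IsPreconnected C ∧ s ∈ C ∧ φ s ∈ C ∧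
          C ⊆ {z | z ∈ ball (0 : ℂ) 1 ∧ sG f c a z ≤ sG f c a s} := by
  set Sad : Set ℂ := {z | (z ∈ ball (0 : ℂ) 1 ∧ 0 < sJ f c z) ∧ sF f c z = a} with hSad
  have hex : ∀ p ∈ Sad, ∃ v w : ℂ, (w / v).im ≠ 0 ∧ (∀ t : ℝ, |t| ≤ 1 →
      p + t * v ∈ ball (0 : ℂ) 1 ∧ (t ≠ 0 → sG f c a (p + t * v) < sG f c a p)) ∧
      ∀ᶠ t : ℝ in 𝓝[≠] 0, sG f c a p < sG f c a (p + t * w) := by
    intro p hp
    obtain ⟨v, w, h1, h2, h3⟩ := star_sad hR hf hinj hc a hp.1.1 hp.2 hp.1.2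
    obtain ⟨ε, hε, h4⟩ := star_seg hp.1.1 h2
    refine ⟨ε * v, w, ?_, h4, h3⟩
    have e : w / (ε * v) = ((ε⁻¹ : ℝ) : ℂ) * (w / v) := by
      push_cast; rw [mul_comm (ε : ℂ) v, ← div_div, div_eq_mul_inv _ (ε : ℂ), mul_comm]
    rw [e, Complex.im_ofReal_mul]
    exact mul_ne_zero (inv_ne_zero hε.ne') h1
  choose! v w hvw hseg hup using hex
  obtain ⟨φ, hφ, h⟩ := star_pairing (sG f c a) (star_cont hR hf a) (star_prop hR hf hc a ha)
    (fun z hz => star_nomax hR hf hinj hc a hz) Sad v w hseg hvw hup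
  refine ⟨φ, hφ, fun s hs hJ hF => ?_⟩
  obtain ⟨h1, h2, h3, h4, m, hm, hm1, hm2⟩ := h s ⟨⟨hs, hJ⟩, hF⟩
  have hne : f (φ s) ≠ a := by
    intro h5
    have h6 : sG f c a (φ s) = 0 := by simp [sG, h5]
    have h7 : f m = a := sG_le_zero hm (hm2.trans h6.le)
    exact hm1 (hinj (ball_subset_ball hR.le hm) (ball_subset_ball hR.le h1) (h7.trans h5.symm))
  obtain ⟨h5, h6, h7⟩ := star_min hR hf hinj hc a h1 h2 hne
  exact ⟨h1, h5, h6, lt_of_le_of_ne h7 (hreg _ h1 h5 h6), h3, h4⟩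

theorem sJ_zero (f : ℂ → ℂ) (c : ℝ) : sJ f c 0 = 0 := by simp [sJ]

end

/-- STAR': the Morse pairing inequality, integrated in `a`. -/
theorem star' (f : ℂ → ℂ) (R : ℝ) (hR : 1 < R) (hf : DifferentiableOn ℂ f (ball 0 R))
    (hinj : InjOn f (ball 0 R)) (c : ℝ) (hc : -1 < c) (Φ₁ Φ₂ : ℂ → ℝ≥0∞)
    (h₁ : Measurable Φ₁) (h₂ : Measurable Φ₂)
    (hpair : ∀ a s m : ℂ, s ∈ ball (0 : ℂ) 1 → m ∈ ball (0 : ℂ) 1 → s ≠ 0 → m ≠ 0 →
      sF f c s = a → sF f c m = a → 0 < sJ f c s → sJ f c m < 0 →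
      sG f c a m ≤ sG f c a s →
      (∃ C : Set ℂ, IsPreconnected C ∧ s ∈ C ∧ m ∈ C ∧
        C ⊆ {z | z ∈ ball (0 : ℂ) 1 ∧ sG f c a z ≤ sG f c a s}) →
      Φ₁ s ≤ Φ₂ m) :
    ∫⁻ z in {z | z ∈ ball (0 : ℂ) 1 ∧ 0 < sJ f c z}, ENNReal.ofReal (sJ f c z) * Φ₁ z ≤
      ∫⁻ z in {z | z ∈ ball (0 : ℂ) 1 ∧ sJ f c z < 0}, ENNReal.ofReal (-sJ f c z) * Φ₂ z := by
  have hex : ∀ z, z ∈ ball (0 : ℂ) 1 ∧ z ≠ 0 →
      ∃ A : ℂ →L[ℝ] ℂ, HasStrictFDerivAt (sF f c) A z ∧ A.det = sJ f c z :=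
    fun z hz => star_jac hR hf hinj hc hz.1 hz.2
  choose! F1 hF1 hdet using hex
  have hm := measurable_sJ f c
  have hS₁ : MeasurableSet {z | z ∈ ball (0 : ℂ) 1 ∧ 0 < sJ f c z} :=
    measurableSet_ball.inter (measurableSet_lt measurable_const hm)
  have hS₂ : MeasurableSet {z | z ∈ ball (0 : ℂ) 1 ∧ sJ f c z < 0} :=
    measurableSet_ball.inter (measurableSet_lt hm measurable_const)
  have n1 : ∀ z, 0 < sJ f c z → z ≠ 0 := by
    rintro z h rfl; simp [sJ_zero] at h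
  have n2 : ∀ z, sJ f c z < 0 → z ≠ 0 := by
    rintro z h rfl; simp [sJ_zero] at h
  have hsard := Area.sard (F := sF f c) (F1 := F1) (U := {z | z ∈ ball (0 : ℂ) 1 ∧ z ≠ 0})
    fun z hz => (hF1 z hz).hasFDerivAt
  have hcirc := Area.ae_notMem_image_sphere (f := f) fun z hz =>
    hf.differentiableAt (isOpen_ball.mem_nhds (by simpa [hz] using hR))
  have key := Area.area_compare (F := sF f c) (F1 := F1) hS₁ hS₂
    (fun z hz => hF1 z ⟨hz.1, n1 z hz.2⟩) (fun z hz => hF1 z ⟨hz.1, n2 z hz.2⟩)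
    (fun z hz => by rw [hdet z ⟨hz.1, n1 z hz.2⟩]; exact hz.2.ne')
    (fun z hz => by rw [hdet z ⟨hz.1, n2 z hz.2⟩]; exact hz.2.ne) h₁ h₂ (by
      filter_upwards [hsard, hcirc] with a ha1 ha2
      obtain ⟨φ, hφ, h⟩ := star_fibre hR hf hinj hc a ha2 fun z hz h0 hF => by
        rw [← hdet z ⟨hz, h0⟩]; exact ha1 z ⟨hz, h0⟩ hF
      refine ⟨φ, hφ, fun z hz hF => ?_⟩
      obtain ⟨g1, g2, g3, g4, g5, g6⟩ := h z hz.1 hz.2 hF
      exact ⟨⟨g1, g4⟩, g3, hpair a z (φ z) hz.1 g1 (n1 z hz.2) g2 hF g3 hz.2 g4 g5 g6⟩)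
  refine le_trans (le_of_eq ?_) (key.trans (le_of_eq ?_))
  · refine setLIntegral_congr_fun hS₁ fun z hz => ?_
    simp only [hdet z ⟨hz.1, n1 z hz.2⟩, abs_of_pos hz.2]
  · refine setLIntegral_congr_fun hS₂ fun z hz => ?_
    simp only [hdet z ⟨hz.1, n2 z hz.2⟩, abs_of_neg hz.2]

end Crest.Agent.R131
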